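import Vale.Agent.P076.Endpoint.Series

/-!
Placing the packets on finer and finer grids: the final counterexample.
-/

namespace Vale.Agent.P076.Endpoint

open Finset MeasureTheory Complex Filter Topology
open scoped RealInnerProductSpace

variable {m : ℕ}

/-- The set of points served by one scaled translated packet. -/
def cell (m M : ℕ) (δ : ℝ) (v : EuclideanSpace ℝ (Fin (m + 1))) :
    Set (EuclideanSpace ℝ (Fin (m + 1))) :=
  {x | (fun i => δ⁻¹ * (x i - v i)) ∈ arcSet m M}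

lemma cell_measurable (M : ℕ) (δ : ℝ) (v : EuclideanSpace ℝ (Fin (m + 1))) :
    MeasurableSet (cell m M δ v) :=
  (arcSet_measurable m M).preimage (measurable_pi_lambda _ fun i =>
    measurable_const.mul (((EuclideanSpace.proj (𝕜 := ℝ) i).continuous.measurable).sub measurable_const))

lemma volume_cell (M : ℕ) {δ : ℝ} (hδ : 0 < δ) (v : EuclideanSpace ℝ (Fin (m + 1))) :
    volume (cell m M δ v) = ENNReal.ofReal (δ ^ (m + 1)) * volume (arcSet m M) := by
  have e : cell m M δ v = (WithLp.ofLp (p := 2)) ⁻¹'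
      ((fun y : Fin (m + 1) → ℝ => y + -(fun i => v i)) ⁻¹'
        ((fun y : Fin (m + 1) → ℝ => δ⁻¹ • y) ⁻¹' arcSet m M)) := by
    ext x
    simp only [cell, Set.mem_ofPred_eq, Set.mem_preimage]
    refine iff_of_eq (congrArg (· ∈ arcSet m M) (funext fun i => ?_))
    simp [sub_eq_add_neg]
  have hm1 : MeasurableSet ((fun y : Fin (m + 1) → ℝ => y + -(fun i => v i)) ⁻¹'
      ((fun y : Fin (m + 1) → ℝ => δ⁻¹ • y) ⁻¹' arcSet m M)) :=
    ((arcSet_measurable m M).preimage (measurable_const_smul δ⁻¹)).preimage (measurable_add_const _)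
  rw [e, (PiLp.volume_preserving_ofLp (Fin (m + 1))).measure_preimage hm1.nullMeasurableSet,
    measure_preimage_add_right, Measure.addHaar_preimage_smul _ (inv_ne_zero hδ.ne'),
    Module.finrank_fin_fun, inv_pow, inv_inv, abs_of_pos (by positivity)]

lemma cell_close {M : ℕ} (hM : 8 ≤ M) {δ : ℝ} (hδ : 0 < δ) {v x : EuclideanSpace ℝ (Fin (m + 1))}
    (hx : x ∈ cell m M δ v) (i : Fin (m + 1)) : |x i - v i| ≤ δ / 2 := by
  have := arcSet_small (y := fun i => δ⁻¹ * (x i - v i)) hM hx i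
  simp only [abs_mul, abs_inv, abs_of_pos hδ] at this
  rw [inv_mul_le_iff₀ hδ] at this
  linarith

theorem counterexample (m : ℕ) (hm : 1 ≤ m) (q : ℝ)
    (hq : 2 * (((m : ℝ) + 1) + 1) / ((m : ℝ) + 1) < q) :
    ∃ F : EuclideanSpace ℝ (Fin (m + 1)) → ℂ, MemLp F 2 volume ∧
      (∀ s : ℝ, s < sExp m → ∫⁻ ξ, ENNReal.ofReal ((1 + ‖ξ‖ ^ 2) ^ s * ‖F ξ‖ ^ 2) < ⊤) ∧
      Summable (fun b : ℕ => ((2 : ℝ) ^ ((b : ℝ) * sExp m)
        * (∫ ξ in block (m + 1) b, ‖F ξ‖ ^ 2) ^ ((1 : ℝ) / 2)) ^ q) ∧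
      0 < volume {x : EuclideanSpace ℝ (Fin (m + 1)) | ¬ ∃ (L : ℂ) (g : ℝ → ℂ),
        (∀ᶠ t in 𝓝[>] (0 : ℝ), Tendsto (fun a : ℝ => evo F a x t) (𝓝[>] 0) (𝓝 (g t))) ∧
        Tendsto g (𝓝[>] 0) (𝓝 L)} := by
  classical
  obtain ⟨c, hc, hcount⟩ := arcSet_measure m hm
  have hn : (0 : ℝ) < (m : ℝ) + 1 := by positivity
  have hq0 : 0 < q := lt_trans (by positivity) hq
  set γ := kExp m * q - ((m : ℝ) + 1) with hγ
  have hγ0 : 0 < γ := by
    rw [div_lt_iff₀ hn] at hq
    rw [hγ, kExp, div_mul_eq_mul_div, sub_pos, lt_div_iff₀ (by positivity)]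
    nlinarith
  obtain ⟨e, he⟩ := exists_nat_ge (1 / γ)
  rw [div_le_iff₀ hγ0] at he
  set L : ℕ → ℕ := fun j => 2 ^ (e * j) with hL
  have hL0 : ∀ j, 0 < L j := fun j => pow_pos two_pos _
  let J := Σ j : ℕ, (Fin (m + 1) → Fin (L j))
  have : Infinite J :=
    Infinite.of_injective (fun j => (⟨j, fun _ => ⟨0, hL0 j⟩⟩ : J)) fun a b h => congrArg Sigma.fst h
  let σ : J ≃ ℕ := (nonempty_denumerable J).some.eqv
  set δ : ℕ → ℝ := fun K => 1 / (4 * (L (σ.symm K).1 : ℝ)) with hδdef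
  set v : ℕ → EuclideanSpace ℝ (Fin (m + 1)) := fun K =>
    WithLp.toLp 2 fun i => ((((σ.symm K).2 i : ℕ) : ℝ) / (L (σ.symm K).1 : ℝ)) with hvdef
  have hLr : ∀ j, (0 : ℝ) < (L j : ℝ) := fun j => by exact_mod_cast hL0 j
  have hδ : ∀ K, 0 < δ K := fun K => by rw [hδdef]; exact div_pos one_pos (mul_pos four_pos (hLr _))
  have hv : ∀ K i, |v K i| ≤ 1 := fun K i => by
    simp only [hvdef]
    rw [abs_of_nonneg (by positivity), div_le_one (hLr _)]
    exact_mod_cast ((σ.symm K).2 i).isLt.le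
  have hsum : Summable fun K => δ K ^ (kExp m * q) := by
    have hg : Summable fun p : J => (1 / (4 * (L p.1 : ℝ))) ^ (kExp m * q) := by
      rw [summable_sigma_of_nonneg (fun p => by have := hLr p.1; positivity)]
      refine ⟨fun j => (hasSum_fintype _).summable, ?_⟩
      refine Summable.of_nonneg_of_le (fun j => tsum_nonneg fun p => by have := hLr j; positivity)
        (fun j => ?_) (summable_geometric_two)
      rw [tsum_fintype]
      simp only [Finset.sum_const, Finset.card_univ, Fintype.card_pi, Fintype.card_fin,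
        Finset.prod_const, nsmul_eq_mul]
      push_cast
      have hl := hLr j
      have hkq : 0 ≤ kExp m * q := by unfold kExp; positivity
      calc (L j : ℝ) ^ (m + 1) * (1 / (4 * (L j : ℝ))) ^ (kExp m * q)
          ≤ (L j : ℝ) ^ (m + 1) * (1 / (L j : ℝ)) ^ (kExp m * q) := by
            refine mul_le_mul_of_nonneg_left (Real.rpow_le_rpow (by positivity) ?_ hkq) (by positivity)
            gcongr
            linarith
        _ = (L j : ℝ) ^ (-γ) := by
            rw [one_div, Real.inv_rpow hl.le, ← Real.rpow_neg hl.le, ← Real.rpow_natCast,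
              ← Real.rpow_add hl]
            congr 1
            rw [hγ]; push_cast; ring
        _ ≤ (1 / 2 : ℝ) ^ j := by
            rw [hL]; push_cast
            rw [← Real.rpow_natCast, ← Real.rpow_mul (by norm_num), one_div, inv_pow,
              ← Real.rpow_natCast (2 : ℝ) j, ← Real.rpow_neg (by norm_num)]
            refine Real.rpow_le_rpow_of_exponent_le one_le_two ?_
            push_cast
            nlinarith [Nat.cast_nonneg (α := ℝ) j]
    exact σ.symm.summable_iff.mpr hg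
  obtain ⟨S⟩ := exists_schedule m δ hδ v
  have hT := besov_summable S hδ hq0 hsum
  have hsob : ∀ s : ℝ, s < sExp m →
      ∫⁻ ξ, ENNReal.ofReal ((1 + ‖ξ‖ ^ 2) ^ s * ‖total S ξ‖ ^ 2) < ⊤ :=
    fun s hs => sobolev_finite S hδ hq0 hT hs
  have hint : Integrable fun ξ => ‖total S ξ‖ ^ 2 := by
    refine ⟨((total_measurable S hδ).norm.pow_const 2).aestronglyMeasurable, ?_⟩
    rw [hasFiniteIntegral_iff_ofReal (Filter.Eventually.of_forall fun _ => sq_nonneg _)]
    have := hsob 0 (by unfold sExp; positivity)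
    simpa using this
  refine ⟨total S, (memLp_two_iff_integrable_sq_norm
    (total_measurable S hδ).aestronglyMeasurable).mpr hint, hsob, hT, ?_⟩
  -- the grids of cells
  set W : ℕ → Set (EuclideanSpace ℝ (Fin (m + 1))) := fun j =>
    ⋃ p : Fin (m + 1) → Fin (L j), cell m (S.M (σ ⟨j, p⟩)) (δ (σ ⟨j, p⟩)) (v (σ ⟨j, p⟩)) with hW
  have hδj : ∀ j p, δ (σ ⟨j, p⟩) = 1 / (4 * (L j : ℝ)) := fun j p => by
    simp only [hδdef]; rw [Equiv.symm_apply_apply]
  have hvj : ∀ j p i, v (σ ⟨j, p⟩) i = ((p i : ℕ) : ℝ) / (L j : ℝ) := fun j p i => by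
    simp only [hvdef]; rw [Equiv.symm_apply_apply]
  have hbox : ∀ j, ∀ x ∈ W j, ∀ i, |x i| ≤ 2 := by
    intro j x hx i
    obtain ⟨p, hp⟩ := Set.mem_iUnion.mp hx
    have h1 := cell_close (S.good _).eight_le (hδ _) hp i
    have h2 := hv (σ ⟨j, p⟩) i
    have h3 : δ (σ ⟨j, p⟩) ≤ 1 := by
      rw [hδj, div_le_one (by have := hLr j; positivity)]
      have : (1 : ℝ) ≤ L j := by exact_mod_cast hL0 j
      linarith
    linarith [abs_sub_abs_le_abs_sub (x i) (v (σ ⟨j, p⟩) i)]
  have hWvol : ∀ j, ENNReal.ofReal (c / 4 ^ (m + 1)) ≤ volume (W j) := by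
    intro j
    have hdisj : Pairwise (Function.onFun Disjoint fun p : Fin (m + 1) → Fin (L j) =>
        cell m (S.M (σ ⟨j, p⟩)) (δ (σ ⟨j, p⟩)) (v (σ ⟨j, p⟩))) := by
      intro p p' hpp
      rw [Function.onFun, Set.disjoint_left]
      intro x h1 h2
      obtain ⟨i, hi'⟩ := Function.ne_iff.mp hpp
      have a1 := cell_close (S.good _).eight_le (hδ _) h1 i
      have a2 := cell_close (S.good _).eight_le (hδ _) h2 i
      rw [hδj, hvj] at a1 a2
      have a3 : (1 : ℝ) ≤ |((p i : ℕ) : ℝ) - ((p' i : ℕ) : ℝ)| := by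
        have hne : ((p i : ℕ) : ℤ) - ((p' i : ℕ) : ℤ) ≠ 0 := by
          intro h; exact hi' (Fin.ext (by omega))
        have := Int.one_le_abs hne
        exact_mod_cast this
      have a4 : |((p i : ℕ) : ℝ) / L j - ((p' i : ℕ) : ℝ) / L j| ≤ 2 * (1 / (4 * (L j : ℝ)) / 2) := by
        calc _ ≤ |((p i : ℕ) : ℝ) / L j - x i| + |x i - ((p' i : ℕ) : ℝ) / L j| := abs_sub_le _ _ _
          _ ≤ _ := by rw [abs_sub_comm]; linarith
      rw [← sub_div, abs_div, abs_of_pos (hLr j), div_le_iff₀ (hLr j)] at a4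
      have : 2 * (1 / (4 * (L j : ℝ)) / 2) * L j = 1 / 4 := by
        have := (hLr j).ne'; field_simp
      linarith
    rw [hW, measure_iUnion hdisj fun p => cell_measurable _ _ _, tsum_fintype]
    refine le_trans (le_of_eq ?_) (Finset.sum_le_sum
      (f := fun _ => ENNReal.ofReal ((1 / (4 * (L j : ℝ))) ^ (m + 1)) * ENNReal.ofReal c)
      fun p _ => ?_)
    · simp only [Finset.sum_const, Finset.card_univ, Fintype.card_pi, Fintype.card_fin,
        Finset.prod_const, nsmul_eq_mul]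
      have hl := hLr j
      rw [← ENNReal.ofReal_natCast, ← ENNReal.ofReal_mul (by positivity),
        ← ENNReal.ofReal_mul (by positivity)]
      congr 1
      push_cast
      rw [div_pow, one_pow, mul_pow]
      field_simp
    · rw [volume_cell _ (hδ _), hδj]
      gcongr
      exact hcount _ (S.good _).1
  set U : ℕ → Set (EuclideanSpace ℝ (Fin (m + 1))) := fun N => ⋃ j ∈ {j | N ≤ j}, W j with hU
  have hWm : ∀ j, MeasurableSet (W j) := fun j => MeasurableSet.iUnion fun p => cell_measurable _ _ _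
  have hUm : ∀ N, MeasurableSet (U N) := fun N =>
    MeasurableSet.biUnion (Set.to_countable _) fun j _ => hWm j
  have hUfin : volume (U 0) ≠ ⊤ := by
    refine ne_top_of_le_ne_top (measure_closedBall_lt_top (x := (0 : EuclideanSpace ℝ (Fin (m + 1))))
      (r := 2 * ((m : ℝ) + 1))).ne (measure_mono fun x hx => ?_)
    obtain ⟨j, -, hj⟩ := Set.mem_iUnion₂.mp hx
    rw [mem_closedBall_zero_iff]
    refine (sq_le_sq₀ (norm_nonneg _) (by positivity)).mp ?_
    rw [EuclideanSpace.real_norm_sq_eq]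
    calc ∑ i, x i ^ 2 ≤ ∑ _i : Fin (m + 1), (4 : ℝ) := by
          refine Finset.sum_le_sum fun i _ => ?_
          have h := pow_le_pow_left₀ (abs_nonneg _) (hbox j x hj i) 2
          rw [sq_abs] at h
          linarith
      _ ≤ _ := by simp; nlinarith
  have hlim : ENNReal.ofReal (c / 4 ^ (m + 1)) ≤ volume (⋂ N, U N) := by
    refine ge_of_tendsto' (tendsto_measure_iInter_atTop (fun N => (hUm N).nullMeasurableSet)
      (fun a b hab => Set.biUnion_subset_biUnion_left fun j hj => le_trans hab hj) ⟨0, hUfin⟩) fun N => ?_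
    exact (hWvol N).trans (measure_mono (Set.subset_biUnion_of_mem (u := W) (show N ∈ {j | N ≤ j} from le_refl N)))
  refine lt_of_lt_of_le (lt_of_lt_of_le (ENNReal.ofReal_pos.mpr (by positivity)) hlim)
    (measure_mono fun x hx => ?_)
  rintro ⟨L', g, hg, hgL⟩
  have hx' : ∀ N, ∃ j, N ≤ j ∧ x ∈ W j := fun N => by
    obtain ⟨j, h1, h2⟩ := Set.mem_iUnion₂.mp (Set.mem_iInter.mp hx N)
    exact ⟨j, h1, h2⟩
  have hxb : ∀ i, |x i| ≤ 2 := by
    obtain ⟨j, -, hj⟩ := hx' 0
    exact hbox j x hj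
  have hlow : 0 < lowC m := by rw [lowC]; positivity
  have hev : ∀ᶠ t in 𝓝[>] (0 : ℝ),
      ‖(∑' k, evo (piece m (S.M k) (δ k) (v k)) 0 x t) - L'‖ < lowC m / 8 := by
    filter_upwards [hg, hgL.eventually (Metric.ball_mem_nhds L' (show 0 < lowC m / 8 by positivity)),
      self_mem_nhdsWithin] with t h1 h2 h3
    rw [← tendsto_nhds_unique h1 (total_limit S hδ hint hxb hv h3)]
    simpa [Metric.mem_ball, dist_eq_norm] using h2
  obtain ⟨η, hη0, hη⟩ := (nhdsGT_basis (0 : ℝ)).eventually_iff.mp hev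
  obtain ⟨K0, hK0⟩ := exists_pow_lt_of_lt_one (show 0 < min η (lowC m / 20) from
    lt_min hη0 (by positivity)) (show (1 / 2 : ℝ) < 1 by norm_num)
  obtain ⟨j, hj, hxj⟩ := hx' ((Finset.range K0).sup (fun K => (σ.symm K).1) + 1)
  obtain ⟨p, hp⟩ := Set.mem_iUnion.mp hxj
  have hK : K0 ≤ σ ⟨j, p⟩ := by
    by_contra hlt
    push Not at hlt
    have := Finset.le_sup (f := fun K => (σ.symm K).1) (Finset.mem_range.mpr hlt)
    simp only [Equiv.symm_apply_apply] at this
    omega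
  set K := σ ⟨j, p⟩ with hKdef
  have hsmall : (1 / 2 : ℝ) ^ K < min η (lowC m / 20) :=
    lt_of_le_of_lt (pow_le_pow_of_le_one (by norm_num) (by norm_num) hK) hK0
  obtain ⟨t, ht0, htτ, hosc⟩ := oscillation S hδ hxb hv hp
  have hτη : S.τ K < η := lt_of_le_of_lt (S.τle K) (hsmall.trans_le (min_le_left _ _))
  have h1 := hη (show t ∈ Set.Ioo 0 η from ⟨ht0, lt_of_le_of_lt htτ hτη⟩)
  have h2 := hη (show S.τ K ∈ Set.Ioo 0 η from ⟨S.τpos K, hτη⟩)
  have h3 := hsmall.trans_le (min_le_right _ _)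
  set A := ∑' k, evo (piece m (S.M k) (δ k) (v k)) 0 x t
  set B := ∑' k, evo (piece m (S.M k) (δ k) (v k)) 0 x (S.τ K)
  have h4 : ‖A - B‖ ≤ ‖A - L'‖ + ‖B - L'‖ := by
    have := norm_sub_le (A - L') (B - L')
    simpa using this
  linarith

end Vale.Agent.P076.Endpoint
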