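import Mathlib

/-!
The set of space points served by a rational with denominator of size `Q = M^n` has measure
bounded below independently of `M`, by a second moment count of overlapping boxes.
-/

namespace Vale.Agent.P076.Endpoint

open Finset MeasureTheory

/-- Largeness of the integer parameter. -/
def Big (m M : ℕ) : Prop := Even M ∧ 0 < M ∧ 64 * (4 + ((m : ℝ) + 1) * Real.log M) ≤ M

/-- The arithmetic labels: an odd modulus, a reduced numerator. -/
def labels (Q : ℕ) : Finset (ℕ × ℕ) :=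
  ((Finset.Ico Q (2 * Q)) ×ˢ range (2 * Q)).filter fun s => Odd s.1 ∧ s.2 < s.1 ∧ s.2.Coprime s.1

/-- The points served by the labels of size `M^(m+1)`. -/
def arcSet (m M : ℕ) : Set (Fin (m + 1) → ℝ) :=
  {x | ∃ q a : ℕ, (q, a) ∈ labels (M ^ (m + 1)) ∧ ∃ p : Fin m → ℕ,
    (∀ j, p j < M ^ (m + 2) * q) ∧ |x 0 - (a : ℝ) / (64 * q)| ≤ 1 / (8 * (M : ℝ) ^ (m + 2)) ∧
    ∀ j : Fin m, |x j.succ - (p j : ℝ) / (8 * (M : ℝ) ^ (m + 2) * q)|
      ≤ 1 / (256 * (M : ℝ) ^ (2 * m + 4))}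

lemma second_moment {X ι : Type*} [MeasurableSpace X] (μ : Measure X) (I : Finset ι)
    (B : ι → Set X) (hB : ∀ i ∈ I, MeasurableSet (B i)) (hfin : ∀ i ∈ I, μ (B i) ≠ ⊤) :
    (∑ i ∈ I, μ.real (B i)) ^ 2
      ≤ μ.real (⋃ i ∈ I, B i) * ∑ i ∈ I, ∑ j ∈ I, μ.real (B i ∩ B j) := by
  set E := ⋃ i ∈ I, B i with hE
  have hEm : MeasurableSet E := Finset.measurableSet_biUnion I hB
  have hEfin : μ E ≠ ⊤ := ne_of_lt (measure_biUnion_lt_top I.finite_toSet
    fun i hi => (hfin i hi).lt_top)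
  have hint : ∀ S : Set X, MeasurableSet S → μ S ≠ ⊤ →
      Integrable (S.indicator (1 : X → ℝ)) μ := fun S hS hf =>
    (integrableOn_const hf (by simp)).integrable_indicator hS
  have hsub : ∀ i ∈ I, ∀ j, μ (B i ∩ B j) ≠ ⊤ := fun i hi j =>
    ne_top_of_le_ne_top (hfin i hi) (measure_mono Set.inter_subset_left)
  have key : ∀ c : ℝ, 0 ≤ (∑ i ∈ I, ∑ j ∈ I, μ.real (B i ∩ B j))
      - 2 * c * (∑ i ∈ I, μ.real (B i)) + c ^ 2 * μ.real E := by
    intro c
    have pt : ∀ x, (∑ i ∈ I, (B i).indicator (1 : X → ℝ) x - c * E.indicator (1 : X → ℝ) x) ^ 2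
        = (∑ i ∈ I, ∑ j ∈ I, (B i ∩ B j).indicator (1 : X → ℝ) x)
          - 2 * c * (∑ i ∈ I, (B i).indicator (1 : X → ℝ) x)
          + c ^ 2 * E.indicator (1 : X → ℝ) x := by
      intro x
      have h1 : (∑ i ∈ I, ∑ j ∈ I, (B i ∩ B j).indicator (1 : X → ℝ) x)
          = (∑ i ∈ I, (B i).indicator (1 : X → ℝ) x) ^ 2 := by
        rw [sq, Finset.sum_mul_sum]
        refine Finset.sum_congr rfl fun i _ => Finset.sum_congr rfl fun j _ => ?_
        rw [Set.inter_indicator_one]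
        rfl
      rw [h1]
      by_cases hx : x ∈ E
      · rw [Set.indicator_of_mem hx]
        simp only [Pi.one_apply]
        ring
      · have : ∀ i ∈ I, (B i).indicator (1 : X → ℝ) x = 0 := fun i hi =>
          Set.indicator_of_notMem (fun h => hx (Set.mem_biUnion hi h)) _
        rw [Set.indicator_of_notMem hx, Finset.sum_eq_zero this]
        ring
    have h0 : 0 ≤ ∫ x, (∑ i ∈ I, (B i).indicator (1 : X → ℝ) x
        - c * E.indicator (1 : X → ℝ) x) ^ 2 ∂μ := integral_nonneg fun x => sq_nonneg _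
    simp only [pt] at h0
    have i2 : Integrable (fun x => ∑ i ∈ I, (B i).indicator (1 : X → ℝ) x) μ :=
      integrable_finsetSum I fun i hi => hint _ (hB i hi) (hfin i hi)
    have i1 : Integrable (fun x => ∑ i ∈ I, ∑ j ∈ I, (B i ∩ B j).indicator (1 : X → ℝ) x) μ :=
      integrable_finsetSum I fun i hi => integrable_finsetSum I fun j hj =>
        hint _ ((hB i hi).inter (hB j hj)) (hsub i hi j)
    have i3 : Integrable (fun x => c ^ 2 * E.indicator (1 : X → ℝ) x) μ :=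
      (hint E hEm hEfin).const_mul _
    have i12 : Integrable (fun x => (∑ i ∈ I, ∑ j ∈ I, (B i ∩ B j).indicator (1 : X → ℝ) x)
          - 2 * c * (∑ i ∈ I, (B i).indicator (1 : X → ℝ) x)) μ := i1.sub (i2.const_mul _)
    rw [integral_add i12 i3, integral_sub i1 (i2.const_mul _), integral_const_mul,
      integral_const_mul, integral_indicator_one hEm,
      integral_finsetSum I (fun i hi => hint _ (hB i hi) (hfin i hi)),
      integral_finsetSum I (fun i hi => integrable_finsetSum I fun j hj =>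
        hint _ ((hB i hi).inter (hB j hj)) (hsub i hi j))] at h0
    have e1 : ∀ i ∈ I, ∫ x, (B i).indicator (1 : X → ℝ) x ∂μ = μ.real (B i) :=
      fun i hi => integral_indicator_one (hB i hi)
    have e2 : ∀ i ∈ I, ∫ x, ∑ j ∈ I, (B i ∩ B j).indicator (1 : X → ℝ) x ∂μ
        = ∑ j ∈ I, μ.real (B i ∩ B j) := fun i hi => by
      rw [integral_finsetSum I (fun j hj => hint _ ((hB i hi).inter (hB j hj)) (hsub i hi j))]
      exact Finset.sum_congr rfl fun j hj => integral_indicator_one ((hB i hi).inter (hB j hj))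
    rwa [Finset.sum_congr rfl e1, Finset.sum_congr rfl e2] at h0
  rcases eq_or_ne (μ.real E) 0 with h | h
  · have : ∀ i ∈ I, μ.real (B i) = 0 := fun i hi =>
      le_antisymm (h ▸ measureReal_mono (Set.subset_biUnion_of_mem (u := B) hi) hEfin)
        measureReal_nonneg
    rw [Finset.sum_eq_zero this, h]
    norm_num
  · have hpos : 0 < μ.real E := lt_of_le_of_ne measureReal_nonneg (Ne.symm h)
    have h2 := key ((∑ i ∈ I, μ.real (B i)) / μ.real E)
    have h3 := mul_nonneg hpos.le h2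
    field_simp at h3
    nlinarith

/-- Pairs `(a, a')` in a box with `|a q' - a' q| ≤ B`. -/
def nearPairs (q q' K B : ℕ) : Finset (ℕ × ℕ) :=
  (range (K * q) ×ˢ range (K * q')).filter fun s =>
    ((s.1 : ℤ) * q' - (s.2 : ℤ) * q).natAbs ≤ B

lemma nearPairs_inj {q q' K B : ℕ} (hq : 0 < q) (hq' : 0 < q') :
    Set.InjOn (fun s : ℕ × ℕ =>
        (((s.1 : ℤ) * q' - (s.2 : ℤ) * q) / ((q.gcd q' : ℕ) : ℤ), s.1 / (q / q.gcd q')))
      (nearPairs q q' K B) := by
  intro s _ t _ h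
  set g := q.gcd q'
  simp only [Prod.mk.injEq] at h
  obtain ⟨h1, h2⟩ := h
  have hg : 0 < g := Nat.gcd_pos_of_pos_left _ hq
  obtain ⟨b, hb⟩ : g ∣ q := Nat.gcd_dvd_left _ _
  obtain ⟨b', hb'⟩ : g ∣ q' := Nat.gcd_dvd_right _ _
  have hbdiv : q / g = b := by rw [hb]; exact Nat.mul_div_cancel_left _ hg
  have hb'div : q' / g = b' := by rw [hb']; exact Nat.mul_div_cancel_left _ hg
  have hcop : b.Coprime b' := by
    rw [← hbdiv, ← hb'div]; exact Nat.coprime_div_gcd_div_gcd hg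
  have hgz : (g : ℤ) ≠ 0 := by exact_mod_cast hg.ne'
  have e : ∀ v : ℕ × ℕ, ((v.1 : ℤ) * q' - (v.2 : ℤ) * q) / (g : ℤ)
      = (v.1 : ℤ) * b' - (v.2 : ℤ) * b := by
    intro v
    have : (v.1 : ℤ) * q' - (v.2 : ℤ) * q = (g : ℤ) * ((v.1 : ℤ) * b' - (v.2 : ℤ) * b) := by
      rw [hb, hb']; push_cast; ring
    rw [this, Int.mul_ediv_cancel_left _ hgz]
  rw [e, e] at h1
  rw [hbdiv] at h2
  have hb0 : 0 < b := by rw [← hbdiv]; exact Nat.div_pos (Nat.gcd_le_left _ hq) hg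
  have hdvd : (b : ℤ) ∣ ((s.1 : ℤ) - t.1) * b' := ⟨(s.2 : ℤ) - t.2, by linarith⟩
  have hcz : IsCoprime (b : ℤ) (b' : ℤ) := Int.isCoprime_iff_nat_coprime.mpr (by simpa using hcop)
  have hd2 := hcz.dvd_of_dvd_mul_right hdvd
  have hmod : s.1 % b = t.1 % b := by
    have h4 : (t.1 : ℤ) ≡ (s.1 : ℤ) [ZMOD (b : ℤ)] := Int.modEq_iff_dvd.mpr hd2
    have h5 : t.1 ≡ s.1 [MOD b] := Int.natCast_modEq_iff.mp h4
    exact h5.symm
  have h11 : s.1 = t.1 := by
    rw [← Nat.div_add_mod s.1 b, ← Nat.div_add_mod t.1 b, h2, hmod]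
  have h22 : s.2 = t.2 := by
    rw [h11] at h1
    have h6 : (s.2 : ℤ) * b = (t.2 : ℤ) * b := by linarith
    exact_mod_cast mul_right_cancel₀ (by exact_mod_cast hb0.ne' : (b : ℤ) ≠ 0) h6
  exact Prod.ext h11 h22

lemma nearPairs_card {q q' K B : ℕ} (hq : 0 < q) (hq' : 0 < q') :
    (nearPairs q q' K B).card ≤ (2 * B + q.gcd q') * K ∧
    ((nearPairs q q' K B).filter fun s => (s.1 : ℤ) * q' - (s.2 : ℤ) * q ≠ 0).card ≤ 2 * B * K := by
  set g := q.gcd q' with hgdef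
  have hg : 0 < g := Nat.gcd_pos_of_pos_left _ hq
  have hgz : (0 : ℤ) < g := by exact_mod_cast hg
  have hinj := nearPairs_inj (K := K) (B := B) hq hq'
  rw [← hgdef] at hinj
  have hmem : ∀ s ∈ nearPairs q q' K B,
      (((s.1 : ℤ) * q' - (s.2 : ℤ) * q) / (g : ℤ)).natAbs ≤ B / g ∧ s.1 / (q / g) < K * g ∧
      ((s.1 : ℤ) * q' - (s.2 : ℤ) * q ≠ 0 → ((s.1 : ℤ) * q' - (s.2 : ℤ) * q) / (g : ℤ) ≠ 0) := by
    intro s hs
    simp only [nearPairs, Finset.mem_filter, Finset.mem_product, Finset.mem_range] at hs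
    obtain ⟨⟨hs1, _⟩, hsB⟩ := hs
    have hd : (g : ℤ) ∣ (s.1 : ℤ) * q' - (s.2 : ℤ) * q :=
      dvd_sub (Dvd.dvd.mul_left (by exact_mod_cast Nat.gcd_dvd_right q q') _)
        (Dvd.dvd.mul_left (by exact_mod_cast Nat.gcd_dvd_left q q') _)
    obtain ⟨k, hk⟩ := hd
    rw [hk, Int.mul_ediv_cancel_left _ hgz.ne']
    refine ⟨?_, ?_, fun h e => h (by rw [e, mul_zero])⟩
    · rw [Nat.le_div_iff_mul_le hg]
      rw [hk, Int.natAbs_mul, Int.natAbs_natCast] at hsB
      linarith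
    · have hqg : 0 < q / g := Nat.div_pos (Nat.gcd_le_left _ hq) hg
      rw [Nat.div_lt_iff_lt_mul hqg, mul_assoc, Nat.mul_div_cancel' (Nat.gcd_dvd_left q q')]
      exact hs1
  have hBg : (B / g) * g ≤ B := Nat.div_mul_le_self B g
  constructor
  · calc (nearPairs q q' K B).card
        ≤ (Finset.Icc (-((B / g : ℕ) : ℤ)) ((B / g : ℕ) : ℤ) ×ˢ range (K * g)).card := by
          refine Finset.card_le_card_of_injOn _ ?_ hinj
          intro s hs
          obtain ⟨a1, a2, _⟩ := hmem s hs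
          simp only [Finset.mem_coe, Finset.mem_product, Finset.mem_Icc, Finset.mem_range]
          refine ⟨?_, a2⟩
          omega
      _ = (2 * (B / g) + 1) * (K * g) := by
          rw [Finset.card_product, Int.card_Icc, Finset.card_range]
          congr 1
          omega
      _ = (2 * ((B / g) * g) + g) * K := by ring
      _ ≤ _ := by gcongr
  · calc ((nearPairs q q' K B).filter fun s => (s.1 : ℤ) * q' - (s.2 : ℤ) * q ≠ 0).card
        ≤ (((Finset.Icc (-((B / g : ℕ) : ℤ)) ((B / g : ℕ) : ℤ)).erase 0) ×ˢ range (K * g)).card := by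
          refine Finset.card_le_card_of_injOn _ ?_ (hinj.mono (Finset.coe_subset.mpr (Finset.filter_subset _ _)))
          intro s hs
          rw [Finset.mem_coe, Finset.mem_filter] at hs
          obtain ⟨a1, a2, a3⟩ := hmem s hs.1
          have := a3 hs.2
          simp only [Finset.mem_coe, Finset.mem_product, Finset.mem_erase, Finset.mem_Icc,
            Finset.mem_range]
          refine ⟨⟨this, ?_⟩, a2⟩
          omega
      _ = (2 * (B / g)) * (K * g) := by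
          rw [Finset.card_product,
            Finset.card_erase_of_mem (Finset.mem_Icc.mpr
              ⟨neg_nonpos.mpr (Int.natCast_nonneg _), Int.natCast_nonneg _⟩), Int.card_Icc,
            Finset.card_range]
          congr 1
          omega
      _ = 2 * ((B / g) * g) * K := by ring
      _ ≤ _ := by gcongr

lemma gcd_pow_sum {m : ℕ} (hm : 1 ≤ m) (L : ℕ) :
    ∑ s ∈ Finset.Ioc 0 L ×ˢ Finset.Ioc 0 L, ((s.1.gcd s.2 : ℕ) : ℝ) ^ m
      ≤ (L : ℝ) ^ (m + 1) * (1 + Real.log L) := by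
  have h1 : ∑ s ∈ Finset.Ioc 0 L ×ˢ Finset.Ioc 0 L, ((s.1.gcd s.2 : ℕ) : ℝ) ^ m
      ≤ ∑ d ∈ Finset.Ioc 0 L, ∑ s ∈ (Finset.Ioc 0 L ×ˢ Finset.Ioc 0 L).filter
          (fun s => d ∣ s.1 ∧ d ∣ s.2), (d : ℝ) ^ m := by
    simp only [Finset.sum_filter]
    rw [Finset.sum_comm (s := Finset.Ioc 0 L)]
    refine Finset.sum_le_sum fun s hs => ?_
    simp only [Finset.mem_product, Finset.mem_Ioc] at hs
    have hmem : s.1.gcd s.2 ∈ Finset.Ioc 0 L := Finset.mem_Ioc.mpr
      ⟨Nat.gcd_pos_of_pos_left _ hs.1.1, (Nat.gcd_le_left _ hs.1.1).trans hs.1.2⟩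
    refine le_trans ?_ (Finset.single_le_sum
      (f := fun d : ℕ => if d ∣ s.1 ∧ d ∣ s.2 then (d : ℝ) ^ m else 0)
      (fun d _ => by split_ifs <;> positivity) hmem)
    simp [Nat.gcd_dvd_left, Nat.gcd_dvd_right]
  refine h1.trans ?_
  have h2 : ∀ d ∈ Finset.Ioc 0 L, ∑ s ∈ (Finset.Ioc 0 L ×ˢ Finset.Ioc 0 L).filter
      (fun s => d ∣ s.1 ∧ d ∣ s.2), (d : ℝ) ^ m ≤ (L : ℝ) ^ (m + 1) * (1 / (d : ℝ)) := by
    intro d hd
    simp only [Finset.mem_Ioc] at hd
    have hd0 : (0 : ℝ) < d := by exact_mod_cast hd.1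
    rw [Finset.filter_product (p := fun a => d ∣ a) (q := fun b => d ∣ b), Finset.sum_const,
      Finset.card_product, nsmul_eq_mul, Nat.Ioc_filter_dvd_card_eq_div]
    have h3 : ((L / d : ℕ) : ℝ) ≤ (L : ℝ) / d := Nat.cast_div_le
    have h4 : (d : ℝ) ≤ L := by exact_mod_cast hd.2
    obtain ⟨k, rfl⟩ := Nat.exists_eq_add_of_le' hm
    push_cast
    calc ((L / d : ℕ) : ℝ) * ((L / d : ℕ) : ℝ) * (d : ℝ) ^ (k + 1)
        ≤ ((L : ℝ) / d) * ((L : ℝ) / d) * (d : ℝ) ^ (k + 1) := by gcongr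
      _ = (L : ℝ) ^ 2 * ((d : ℝ) ^ k * (1 / d)) := by rw [pow_succ]; field_simp
      _ ≤ (L : ℝ) ^ 2 * ((L : ℝ) ^ k * (1 / d)) := by gcongr
      _ = _ := by ring
  refine (Finset.sum_le_sum h2).trans ?_
  rw [← Finset.mul_sum]
  gcongr
  have hh := harmonic_le_one_add_log L
  refine le_trans (le_of_eq ?_) hh
  simp [harmonic, one_div]
  rw [Finset.range_eq_Ico, Finset.sum_Ico_eq_sum_range]
  refine Finset.sum_nbij' (fun d => d - 1) (fun i => i + 1) ?_ ?_ ?_ ?_ ?_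
  · intro d hd; simp only [Finset.mem_Ioc] at hd; simp; omega
  · intro d hd; simp only [Finset.mem_range] at hd; simp; omega
  · intro d hd; simp only [Finset.mem_Ioc] at hd; omega
  · intro d hd; omega
  · intro d hd
    simp only [Finset.mem_Ioc] at hd
    obtain ⟨e, rfl⟩ := Nat.exists_eq_add_of_le' hd.1
    simp [add_comm]

lemma labels_card {Q : ℕ} (hQ : Even Q) (hbig : 8 * (1 + Real.log Q) ≤ Q) :
    (Q : ℝ) ^ 2 / 4 ≤ ((labels Q).card : ℝ) := by
  obtain ⟨r, hr⟩ := hQ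
  set O := (Finset.Ico Q (2 * Q)).filter (fun q => Odd q) with hO
  set S := O ×ˢ Finset.Ioc 0 Q with hS
  set D := (Finset.Ioc 0 Q).filter (fun d => Odd d ∧ 3 ≤ d) with hD
  set bad := fun d => O.filter (fun q => d ∣ q) ×ˢ (Finset.Ioc 0 Q).filter (fun a => d ∣ a) with hbad
  have hOcard : O.card = r := by
    have : O = (range r).image (fun i => Q + 2 * i + 1) := by
      ext q
      simp only [hO, Finset.mem_filter, Finset.mem_Ico, Finset.mem_image, Finset.mem_range]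
      constructor
      · rintro ⟨h, k, hk⟩
        exact ⟨k - r, by omega, by omega⟩
      · rintro ⟨i, hi, rfl⟩
        exact ⟨by omega, ⟨r + i, by omega⟩⟩
    rw [this, Finset.card_image_of_injective _ (fun i j h => by simp at h; omega), Finset.card_range]
  have hsub : S ⊆ labels Q ∪ D.biUnion bad := by
    intro s hs
    simp only [hS, hO, Finset.mem_product, Finset.mem_filter, Finset.mem_Ico, Finset.mem_Ioc] at hs
    obtain ⟨⟨h1, hodd⟩, h2⟩ := hs
    have hne : s.1 ≠ Q := by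
      intro e; rw [e] at hodd; exact (Nat.not_odd_iff_even.mpr ⟨r, hr⟩) hodd
    by_cases hc : s.2.Coprime s.1
    · refine Finset.mem_union_left _ ?_
      simp only [labels, Finset.mem_filter, Finset.mem_product, Finset.mem_Ico, Finset.mem_range]
      exact ⟨⟨h1, by omega⟩, hodd, by omega, hc⟩
    · refine Finset.mem_union_right _ (Finset.mem_biUnion.mpr ⟨s.2.gcd s.1, ?_, ?_⟩)
      · have hg1 : s.2.gcd s.1 ∣ s.1 := Nat.gcd_dvd_right _ _
        have hgo : Odd (s.2.gcd s.1) := hodd.of_dvd_nat hg1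
        have hg0 : 0 < s.2.gcd s.1 := Nat.gcd_pos_of_pos_left _ h2.1
        have hne1 : s.2.gcd s.1 ≠ 1 := hc
        have hgl : s.2.gcd s.1 ≤ Q := (Nat.gcd_le_left _ h2.1).trans h2.2
        obtain ⟨k, hk⟩ := hgo
        simp only [hD, Finset.mem_filter, Finset.mem_Ioc]
        exact ⟨⟨hg0, hgl⟩, ⟨k, hk⟩, by omega⟩
      · simp only [hbad, hO, Finset.mem_product, Finset.mem_filter, Finset.mem_Ico, Finset.mem_Ioc]
        exact ⟨⟨⟨h1, hodd⟩, Nat.gcd_dvd_right _ _⟩, h2, Nat.gcd_dvd_left _ _⟩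
  have hbadcard : ∀ d ∈ D, ((bad d).card : ℝ) ≤ (Q : ℝ) ^ 2 / (2 * (d : ℝ) ^ 2) + Q / d := by
    intro d hd
    simp only [hD, Finset.mem_filter, Finset.mem_Ioc] at hd
    obtain ⟨⟨hd0, -⟩, hdo, -⟩ := hd
    have hdr : (0 : ℝ) < d := by exact_mod_cast hd0
    have hA : ((Finset.Ioc 0 Q).filter (fun a => d ∣ a)).card = Q / d :=
      Nat.Ioc_filter_dvd_card_eq_div Q d
    have hB : (O.filter (fun q => d ∣ q)).card ≤ Q / (2 * d) + 1 := by
      refine le_trans (Finset.card_le_card_of_injOn (fun q => (q - Q) / (2 * d))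
        (t := range (Q / (2 * d) + 1)) ?_ ?_) (le_of_eq (Finset.card_range _))
      · intro q hq
        simp only [hO, Finset.coe_filter, Finset.mem_Ico, Set.mem_ofPred_eq, Finset.mem_filter] at hq
        simp only [Finset.mem_coe, Finset.mem_range]
        exact Nat.lt_succ_of_le (Nat.div_le_div_right (by omega))
      · intro q hq q' hq' e
        simp only [hO, Finset.coe_filter, Finset.mem_Ico, Set.mem_ofPred_eq, Finset.mem_filter] at hq hq'
        simp only at e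
        have hmod : (q - Q) % (2 * d) = (q' - Q) % (2 * d) := by
          have hcop : Nat.Coprime 2 d := (Nat.coprime_two_left).mpr hdo
          have : q ≡ q' [MOD 2 * d] := (Nat.modEq_and_modEq_iff_modEq_mul hcop).mp
            ⟨by unfold Nat.ModEq; rw [Nat.odd_iff.mp hq.1.2, Nat.odd_iff.mp hq'.1.2],
             by unfold Nat.ModEq; rw [Nat.mod_eq_zero_of_dvd hq.2, Nat.mod_eq_zero_of_dvd hq'.2]⟩
          have hle : Q ≤ q := hq.1.1.1
          have hle' : Q ≤ q' := hq'.1.1.1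
          have h' : q - Q + Q ≡ q' - Q + Q [MOD 2 * d] := by
            rwa [Nat.sub_add_cancel hle, Nat.sub_add_cancel hle']
          exact Nat.ModEq.add_right_cancel' Q h'
        have := Nat.div_add_mod (q - Q) (2 * d)
        have := Nat.div_add_mod (q' - Q) (2 * d)
        rw [e, hmod] at *
        omega
    rw [hbad]
    simp only [Finset.card_product, hA]
    push_cast
    have hB' : ((O.filter (fun q => d ∣ q)).card : ℝ) ≤ (Q : ℝ) / (2 * d) + 1 := by
      refine (Nat.cast_le.mpr hB).trans ?_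
      push_cast
      gcongr
      exact (Nat.cast_div_le).trans (by push_cast; rfl)
    have hA' : ((Q / d : ℕ) : ℝ) ≤ (Q : ℝ) / d := Nat.cast_div_le
    calc ((O.filter (fun q => d ∣ q)).card : ℝ) * ((Q / d : ℕ) : ℝ)
        ≤ ((Q : ℝ) / (2 * d) + 1) * ((Q : ℝ) / d) := by gcongr
      _ = _ := by field_simp
  have hsq : ∑ d ∈ D, 1 / (d : ℝ) ^ 2 ≤ 1 / 4 := by
    have himg : D ⊆ (range Q).image (fun k => 2 * k + 3) := by
      intro d hd
      simp only [hD, Finset.mem_filter, Finset.mem_Ioc] at hd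
      obtain ⟨k, hk⟩ := hd.2.1
      exact Finset.mem_image.mpr ⟨k - 1, Finset.mem_range.mpr (by omega), by omega⟩
    refine (Finset.sum_le_sum_of_subset_of_nonneg himg (fun _ _ _ => by positivity)).trans ?_
    rw [Finset.sum_image (fun i _ j _ h => by simpa using h)]
    have tele : ∀ k : ℕ, 1 / ((2 * k + 3 : ℕ) : ℝ) ^ 2
        ≤ 1 / (4 * ((k : ℝ) + 1)) - 1 / (4 * (((k + 1 : ℕ) : ℝ) + 1)) := by
      intro k
      push_cast
      rw [div_sub_div _ _ (by positivity) (by positivity)]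
      rw [div_le_div_iff₀ (by positivity) (by positivity)]
      nlinarith
    refine (Finset.sum_le_sum fun k _ => tele k).trans ?_
    rw [Finset.sum_range_sub' (fun k => 1 / (4 * ((k : ℝ) + 1)))]
    have : (0 : ℝ) ≤ 1 / (4 * ((Q : ℝ) + 1)) := by positivity
    simp only [Nat.cast_zero, zero_add, mul_one]
    linarith
  have hinv : ∑ d ∈ D, 1 / (d : ℝ) ≤ 1 + Real.log Q := by
    refine le_trans ?_ (harmonic_le_one_add_log Q)
    refine le_trans (Finset.sum_le_sum_of_subset_of_nonneg (s := D) (t := Finset.Ioc 0 Q)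
      (Finset.filter_subset _ _) (fun _ _ _ => by positivity)) (le_of_eq ?_)
    simp [harmonic, one_div]
    refine Finset.sum_nbij' (fun d => d - 1) (fun i => i + 1) ?_ ?_ ?_ ?_ ?_
    · intro d hd; simp only [Finset.mem_Ioc] at hd; simp; omega
    · intro d hd; simp only [Finset.mem_range] at hd; simp; omega
    · intro d hd; simp only [Finset.mem_Ioc] at hd; omega
    · intro d hd; omega
    · intro d hd
      simp only [Finset.mem_Ioc] at hd
      obtain ⟨e, rfl⟩ := Nat.exists_eq_add_of_le' hd.1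
      simp [add_comm]
  have hcount : (r : ℝ) * Q ≤ ((labels Q).card : ℝ) + ∑ d ∈ D, ((bad d).card : ℝ) := by
    have := (Finset.card_le_card hsub).trans ((Finset.card_union_le _ _).trans
      (Nat.add_le_add_left Finset.card_biUnion_le _))
    rw [hS, Finset.card_product, hOcard, Nat.card_Ioc, Nat.sub_zero] at this
    exact_mod_cast this
  have hsum : ∑ d ∈ D, ((bad d).card : ℝ)
      ≤ (Q : ℝ) ^ 2 / 2 * (∑ d ∈ D, 1 / (d : ℝ) ^ 2) + Q * ∑ d ∈ D, 1 / (d : ℝ) := by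
    rw [Finset.mul_sum, Finset.mul_sum, ← Finset.sum_add_distrib]
    refine Finset.sum_le_sum fun d hd => (hbadcard d hd).trans (le_of_eq ?_)
    ring
  have hrQ : (r : ℝ) = Q / 2 := by rw [hr]; push_cast; ring
  rw [hrQ] at hcount
  have hQ0 : (0 : ℝ) ≤ Q := Nat.cast_nonneg _
  nlinarith [mul_le_mul_of_nonneg_left hsq (sq_nonneg (Q : ℝ)), mul_le_mul_of_nonneg_left hinv hQ0]

/-- The box attached to a label `((q, a), p)`. -/
noncomputable def arcBox (m M : ℕ) (i : Σ _ : ℕ × ℕ, (Fin m → ℕ)) : Set (Fin (m + 1) → ℝ) :=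
  Set.pi Set.univ (Fin.cons (α := fun _ => Set ℝ)
    (Set.Icc ((i.1.2 : ℝ) / (64 * i.1.1) - 1 / (8 * (M : ℝ) ^ (m + 2)))
      ((i.1.2 : ℝ) / (64 * i.1.1) + 1 / (8 * (M : ℝ) ^ (m + 2))))
    fun j => Set.Icc ((i.2 j : ℝ) / (8 * (M : ℝ) ^ (m + 2) * i.1.1) - 1 / (256 * (M : ℝ) ^ (2 * m + 4)))
      ((i.2 j : ℝ) / (8 * (M : ℝ) ^ (m + 2) * i.1.1) + 1 / (256 * (M : ℝ) ^ (2 * m + 4))))

lemma mem_arcBox {m M : ℕ} {i : Σ _ : ℕ × ℕ, (Fin m → ℕ)} {x : Fin (m + 1) → ℝ} :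
    x ∈ arcBox m M i ↔ |x 0 - (i.1.2 : ℝ) / (64 * i.1.1)| ≤ 1 / (8 * (M : ℝ) ^ (m + 2)) ∧
    ∀ j, |x j.succ - (i.2 j : ℝ) / (8 * (M : ℝ) ^ (m + 2) * i.1.1)|
      ≤ 1 / (256 * (M : ℝ) ^ (2 * m + 4)) := by
  simp only [arcBox, Set.mem_univ_pi, Fin.forall_fin_succ, Fin.cons_zero, Fin.cons_succ,
    Set.mem_Icc, abs_sub_le_iff]
  constructor
  · rintro ⟨⟨h1, h2⟩, h3⟩
    exact ⟨⟨by linarith, by linarith⟩, fun j => ⟨by linarith [(h3 j).2], by linarith [(h3 j).1]⟩⟩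
  · rintro ⟨⟨h1, h2⟩, h3⟩
    exact ⟨⟨by linarith, by linarith⟩, fun j => ⟨by linarith [(h3 j).2], by linarith [(h3 j).1]⟩⟩

lemma volume_arcBox (m M : ℕ) (i : Σ _ : ℕ × ℕ, (Fin m → ℕ)) :
    volume (arcBox m M i) = ENNReal.ofReal
      (2 * (1 / (8 * (M : ℝ) ^ (m + 2))) * (2 * (1 / (256 * (M : ℝ) ^ (2 * m + 4)))) ^ m) := by
  rw [arcBox, volume_pi_pi, Fin.prod_univ_succ]
  simp only [Fin.cons_zero, Fin.cons_succ, Real.volume_Icc]
  rw [Finset.prod_congr rfl (g := fun _ : Fin m =>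
    ENNReal.ofReal (2 * (1 / (256 * (M : ℝ) ^ (2 * m + 4))))) (fun j _ => by congr 1; ring)]
  rw [Finset.prod_const, Finset.card_univ, Fintype.card_fin, ← ENNReal.ofReal_pow (by positivity),
    ← ENNReal.ofReal_mul' (by positivity)]
  congr 1
  ring

/-- Two rationals within `w` of one point give a small cross product. -/
lemma cross_le {a a' q q' K w x : ℝ} (hK : 0 < K) (hq : 0 < q) (hq' : 0 < q')
    (h : |x - a / (K * q)| ≤ w) (h' : |x - a' / (K * q')| ≤ w) :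
    |a * q' - a' * q| ≤ 2 * w * K * (q * q') := by
  have h3 : |a / (K * q) - a' / (K * q')| ≤ 2 * w := by
    calc _ ≤ |a / (K * q) - x| + |x - a' / (K * q')| := abs_sub_le _ _ _
      _ ≤ _ := by rw [abs_sub_comm]; linarith
  have e : a / (K * q) - a' / (K * q') = (a * q' - a' * q) / (K * (q * q')) := by
    field_simp
  rw [e, abs_div, abs_of_pos (show (0 : ℝ) < K * (q * q') by positivity),
    div_le_iff₀ (by positivity)] at h3
  linarith

lemma int_natAbs_le {z : ℤ} {B : ℕ} {w : ℝ} (h : |(z : ℝ)| ≤ w) (hw : w ≤ B) : z.natAbs ≤ B := by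
  have : ((z.natAbs : ℕ) : ℝ) ≤ (B : ℝ) := by
    rw [Nat.cast_natAbs, Int.cast_abs]; exact h.trans hw
  exact_mod_cast this

open scoped Classical in
set_option maxHeartbeats 800000 in
theorem arcSet_measure (m : ℕ) (hm : 1 ≤ m) :
    ∃ c > 0, ∀ M : ℕ, Big m M → ENNReal.ofReal c ≤ volume (arcSet m M) := by
  refine ⟨1 / (1 + 4 * (128 * ((2 : ℝ) ^ m * 2 ^ m) * (1 + 2 ^ (m + 1)))) * (1 / (16 * 128 ^ m)),
    by positivity, ?_⟩
  rintro M ⟨hev, hM0, hbig⟩
  set Q := M ^ (m + 1) with hQdef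
  set H := M ^ (m + 2) with hHdef
  set X := M ^ m with hXdef
  set C : ℝ := 128 * ((2 : ℝ) ^ m * 2 ^ m) * (1 + 2 ^ (m + 1)) with hC
  set S := labels Q with hS
  set I : Finset (Σ _ : ℕ × ℕ, (Fin m → ℕ)) :=
    S.sigma fun s => Fintype.piFinset fun _ => range (H * s.1) with hI
  set V : ℝ := 2 * (1 / (8 * (M : ℝ) ^ (m + 2))) * (2 * (1 / (256 * (M : ℝ) ^ (2 * m + 4)))) ^ m
    with hV
  have hMr : (1 : ℝ) ≤ M := by exact_mod_cast hM0
  have hlogM : 0 ≤ Real.log (M : ℝ) := Real.log_nonneg hMr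
  have hQ0 : 0 < Q := pow_pos hM0 _
  have hV0 : 0 < V := by positivity
  have hlabel : ∀ s ∈ S, Q ≤ s.1 ∧ s.1 < 2 * Q ∧ s.2 < s.1 ∧ s.2.Coprime s.1 := by
    intro s hs
    simp only [hS, labels, Finset.mem_filter, Finset.mem_product, Finset.mem_Ico] at hs
    exact ⟨hs.1.1.1, hs.1.1.2, hs.2.2.1, hs.2.2.2⟩
  have hE : arcSet m M = ⋃ i ∈ I, arcBox m M i := by
    ext x
    simp only [arcSet, Set.mem_ofPred_eq, Set.mem_iUnion, hI, Finset.mem_sigma, mem_arcBox,
      Fintype.mem_piFinset, Finset.mem_range, exists_prop]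
    constructor
    · rintro ⟨q, a, hs, p, hp, h0, h1⟩
      exact ⟨⟨(q, a), p⟩, ⟨hs, hp⟩, h0, h1⟩
    · rintro ⟨⟨⟨q, a⟩, p⟩, ⟨hs, hp⟩, h0, h1⟩
      exact ⟨q, a, hs, p, hp, h0, h1⟩
  have hvol : ∀ i, volume.real (arcBox m M i) = V := fun i => by
    rw [measureReal_def, volume_arcBox, ENNReal.toReal_ofReal hV0.le]
  have hfin : ∀ i, volume (arcBox m M i) ≠ ⊤ := fun i => by
    rw [volume_arcBox]; exact ENNReal.ofReal_ne_top
  have hmeas : ∀ i, MeasurableSet (arcBox m M i) := fun i =>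
    MeasurableSet.univ_pi fun j => by
      refine Fin.cases ?_ (fun k => ?_) j
      · simp [measurableSet_Icc]
      · simp [measurableSet_Icc]
  set Pr := (I ×ˢ I).filter fun z => (arcBox m M z.1 ∩ arcBox m M z.2).Nonempty with hPr
  have hL2 : ∑ i ∈ I, ∑ j ∈ I, volume.real (arcBox m M i ∩ arcBox m M j) ≤ Pr.card * V := by
    rw [← Finset.sum_product']
    calc ∑ z ∈ I ×ˢ I, volume.real (arcBox m M z.1 ∩ arcBox m M z.2)
        = ∑ z ∈ Pr, volume.real (arcBox m M z.1 ∩ arcBox m M z.2) := by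
          refine (Finset.sum_filter_of_ne fun z _ hz => ?_).symm
          by_contra hne
          rw [Set.not_nonempty_iff_eq_empty.mp hne] at hz
          simp at hz
      _ ≤ ∑ z ∈ Pr, V := Finset.sum_le_sum fun z _ =>
          (measureReal_mono Set.inter_subset_left (hfin _)).trans (hvol _).le
      _ = _ := by simp
  -- the overlapping pairs
  set A := fun t : ℕ × ℕ => (nearPairs t.1 t.2 1 (64 * X)).filter
    (fun s => (s.1 : ℤ) * t.2 - (s.2 : ℤ) * t.1 ≠ 0) with hA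
  set T := ((Finset.Ico Q (2 * Q)) ×ˢ (Finset.Ico Q (2 * Q))).sigma
    (fun t => A t ×ˢ Fintype.piFinset fun _ : Fin m => nearPairs t.1 t.2 H X) with hT
  have hsep : ∀ z ∈ Pr, z.1.1 ≠ z.2.1 →
      (⟨(z.1.1.1, z.2.1.1), ((z.1.1.2, z.2.1.2), fun k => (z.1.2 k, z.2.2 k))⟩ :
        Σ _ : ℕ × ℕ, (ℕ × ℕ) × (Fin m → ℕ × ℕ)) ∈ T := by
    rintro ⟨⟨⟨q, a⟩, p⟩, ⟨⟨q', a'⟩, p'⟩⟩ hz hne
    simp only [hPr, hI, Finset.mem_filter, Finset.mem_product, Finset.mem_sigma,
      Fintype.mem_piFinset, Finset.mem_range] at hz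
    obtain ⟨⟨⟨hs, hp⟩, hs', hp'⟩, x, hx, hx'⟩ := hz
    rw [mem_arcBox] at hx hx'
    obtain ⟨h1, h2, h3, h4⟩ := hlabel _ hs
    obtain ⟨h1', h2', h3', h4'⟩ := hlabel _ hs'
    simp only at h1 h2 h3 h4 h1' h2' h3' h4' hx hx' hp hp' hne
    have hq : (0 : ℝ) < q := by exact_mod_cast lt_of_lt_of_le hQ0 h1
    have hq' : (0 : ℝ) < q' := by exact_mod_cast lt_of_lt_of_le hQ0 h1'
    have hqq : (q : ℝ) * q' ≤ 4 * ((M : ℝ) ^ (m + 1) * (M : ℝ) ^ (m + 1)) := by
      have e1 : (q : ℝ) ≤ 2 * (M : ℝ) ^ (m + 1) := by exact_mod_cast h2.le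
      have e2 : (q' : ℝ) ≤ 2 * (M : ℝ) ^ (m + 1) := by exact_mod_cast h2'.le
      have := mul_le_mul e1 e2 hq'.le (by positivity)
      linarith
    simp only [hT, hA, Finset.mem_sigma, Finset.mem_product, Finset.mem_filter, Finset.mem_Ico,
      nearPairs, Fintype.mem_piFinset, Finset.mem_range, one_mul]
    refine ⟨⟨⟨h1, h2⟩, h1', h2'⟩, ⟨⟨⟨h3, h3'⟩, ?_⟩, ?_⟩, fun k => ⟨⟨hp k, hp' k⟩, ?_⟩⟩
    · refine int_natAbs_le (w := 2 * (1 / (8 * (M : ℝ) ^ (m + 2))) * 64 * ((q : ℝ) * q')) ?_ ?_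
      · push_cast
        exact cross_le (by norm_num) hq hq' hx.1 hx'.1
      · rw [hXdef]; push_cast
        calc _ ≤ 2 * (1 / (8 * (M : ℝ) ^ (m + 2))) * 64 * (4 * ((M : ℝ) ^ (m + 1) * (M : ℝ) ^ (m + 1))) := by
              gcongr
          _ = _ := by field_simp; ring
    · intro e
      have e' : a * q' = a' * q := by exact_mod_cast sub_eq_zero.mp e
      have d1 : q ∣ q' := Nat.Coprime.dvd_of_dvd_mul_left h4.symm ⟨a', by rw [e']; ring⟩
      have d2 : q' ∣ q := Nat.Coprime.dvd_of_dvd_mul_left h4'.symm ⟨a, by rw [← e']; ring⟩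
      have hqe : q = q' := Nat.dvd_antisymm d1 d2
      subst hqe
      exact hne (by rw [Nat.eq_of_mul_eq_mul_right (lt_of_lt_of_le hQ0 h1) e'])
    · refine int_natAbs_le (w := 2 * (1 / (256 * (M : ℝ) ^ (2 * m + 4)))
        * (8 * (M : ℝ) ^ (m + 2)) * ((q : ℝ) * q')) ?_ ?_
      · push_cast
        exact cross_le (by positivity) hq hq' (hx.2 k) (hx'.2 k)
      · rw [hXdef]; push_cast
        calc _ ≤ 2 * (1 / (256 * (M : ℝ) ^ (2 * m + 4))) * (8 * (M : ℝ) ^ (m + 2))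
              * (4 * ((M : ℝ) ^ (m + 1) * (M : ℝ) ^ (m + 1))) := by gcongr
          _ = (M : ℝ) ^ m / 4 := by field_simp; ring
          _ ≤ _ := by have : (0 : ℝ) ≤ (M : ℝ) ^ m := by positivity
                      linarith
  have hdiag : ∀ z ∈ Pr, z.1.1 = z.2.1 → z.1 = z.2 := by
    rintro ⟨⟨⟨q, a⟩, p⟩, ⟨⟨q', a'⟩, p'⟩⟩ hz he
    simp only [Prod.mk.injEq] at he
    obtain ⟨rfl, rfl⟩ := he
    simp only [hPr, hI, Finset.mem_filter, Finset.mem_product, Finset.mem_sigma] at hz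
    obtain ⟨⟨⟨hs, -⟩, -⟩, x, hx, hx'⟩ := hz
    rw [mem_arcBox] at hx hx'
    have hqQ : Q ≤ q := (hlabel _ hs).1
    have hq : (0 : ℝ) < q := by exact_mod_cast lt_of_lt_of_le hQ0 hqQ
    simp only [Sigma.mk.injEq, true_and, heq_eq_eq]
    funext k
    have h3 := cross_le (by positivity) hq hq (hx.2 k) (hx'.2 k)
    simp only at h3
    rw [← sub_mul, abs_mul, abs_of_pos hq] at h3
    have h4 : |((p k : ℤ) : ℝ) - ((p' k : ℤ) : ℝ)| < 1 := by
      push_cast
      have e : 2 * (1 / (256 * (M : ℝ) ^ (2 * m + 4))) * (8 * (M : ℝ) ^ (m + 2)) * ((q : ℝ) * q)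
          = (q : ℝ) * ((q : ℝ) / (16 * (M : ℝ) ^ (m + 2))) := by field_simp; ring
      rw [e, mul_comm |(p k : ℝ) - p' k|] at h3
      refine lt_of_le_of_lt (le_of_mul_le_mul_left h3 hq) ?_
      rw [div_lt_one (by positivity)]
      have h2 : (q : ℝ) ≤ 2 * (M : ℝ) ^ (m + 1) := by exact_mod_cast (hlabel _ hs).2.1.le
      have h5 : (M : ℝ) ^ (m + 1) ≤ (M : ℝ) ^ (m + 2) := pow_le_pow_right₀ hMr (by omega)
      have h6 : (0 : ℝ) < (M : ℝ) ^ (m + 1) := by positivity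
      linarith
    rw [← Int.cast_sub, ← Int.cast_abs] at h4
    have h7 : |(p k : ℤ) - (p' k : ℤ)| < 1 := by exact_mod_cast h4
    rw [abs_lt] at h7
    omega
  have hPcard : Pr.card ≤ I.card + T.card := by
    rw [← Finset.card_filter_add_card_filter_not (fun z : (Σ _ : ℕ × ℕ, (Fin m → ℕ)) ×
      (Σ _ : ℕ × ℕ, (Fin m → ℕ)) => z.1.1 = z.2.1) (s := Pr)]
    refine Nat.add_le_add (Finset.card_le_card_of_injOn (fun z => z.1) ?_ ?_)
      (Finset.card_le_card_of_injOn (fun z =>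
        (⟨(z.1.1.1, z.2.1.1), ((z.1.1.2, z.2.1.2), fun k => (z.1.2 k, z.2.2 k))⟩ :
          Σ _ : ℕ × ℕ, (ℕ × ℕ) × (Fin m → ℕ × ℕ))) ?_ ?_)
    · intro z hz
      simp only [Finset.coe_filter, hPr, Finset.mem_filter, Finset.mem_product,
        Set.mem_ofPred_eq] at hz
      exact hz.1.1.1
    · intro z hz w hw e
      simp only [Finset.coe_filter, Set.mem_ofPred_eq] at hz hw
      exact Prod.ext e ((hdiag z hz.1 hz.2).symm.trans (e.trans (hdiag w hw.1 hw.2)))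
    · intro z hz
      simp only [Finset.coe_filter, Set.mem_ofPred_eq] at hz
      exact hsep z hz.1 hz.2
    · rintro ⟨⟨⟨q, a⟩, p⟩, ⟨⟨q', a'⟩, p'⟩⟩ _ ⟨⟨⟨u, b⟩, r⟩, ⟨⟨u', b'⟩, r'⟩⟩ _ e
      simp only [Sigma.mk.injEq, heq_eq_eq, Prod.mk.injEq] at e
      obtain ⟨⟨rfl, rfl⟩, ⟨rfl, rfl⟩, e⟩ := e
      have e1 : p = r := funext fun k => (Prod.mk.inj (congrFun e k)).1
      have e2 : p' = r' := funext fun k => (Prod.mk.inj (congrFun e k)).2
      rw [e1, e2]
  have hIcard : (I.card : ℝ) ≥ (Q : ℝ) ^ 2 / 4 * ((H : ℝ) * Q) ^ m := by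
    have hl : (Q : ℝ) ^ 2 / 4 ≤ S.card := by
      refine labels_card ((Nat.even_pow).mpr ⟨hev, by omega⟩) ?_
      have : Real.log (Q : ℝ) = ((m : ℝ) + 1) * Real.log M := by
        rw [hQdef]; push_cast; rw [Real.log_pow]; push_cast; ring
      rw [this]
      have h8 : (M : ℝ) ≤ Q := by exact_mod_cast Nat.le_self_pow (by omega) M
      have h9 : 0 ≤ ((m : ℝ) + 1) * Real.log M := by positivity
      linarith
    have hc : S.card * (H * Q) ^ m ≤ I.card := by
      rw [hI, Finset.card_sigma, ← smul_eq_mul, ← Finset.sum_const]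
      refine Finset.sum_le_sum fun s hs => ?_
      rw [Fintype.card_piFinset_const, Finset.card_range]
      exact Nat.pow_le_pow_left (Nat.mul_le_mul_left _ (hlabel s hs).1) _
    have hc' : (S.card : ℝ) * ((H : ℝ) * Q) ^ m ≤ I.card := by exact_mod_cast hc
    refine le_trans ?_ hc'
    gcongr
  have hTcard : (T.card : ℝ) ≤ C * ((Q : ℝ) ^ 2 * ((H : ℝ) * Q) ^ m) := by
    have h1 : (T.card : ℝ) ≤ ∑ t ∈ (Finset.Ico Q (2 * Q)) ×ˢ (Finset.Ico Q (2 * Q)),
        128 * (X : ℝ) * ((H : ℝ) ^ m * (2 ^ m * (2 : ℝ) ^ m * ((X : ℝ) ^ m + ((t.1.gcd t.2 : ℕ) : ℝ) ^ m))) := by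
      rw [hT, Finset.card_sigma, Nat.cast_sum]
      refine Finset.sum_le_sum fun t ht => ?_
      simp only [Finset.mem_product, Finset.mem_Ico] at ht
      have p1 : 0 < t.1 := lt_of_lt_of_le hQ0 ht.1.1
      have p2 : 0 < t.2 := lt_of_lt_of_le hQ0 ht.2.1
      rw [Finset.card_product, Fintype.card_piFinset_const, Nat.cast_mul, Nat.cast_pow]
      have a1 : ((A t).card : ℝ) ≤ 128 * X := by
        have : (A t).card ≤ 2 * (64 * X) * 1 := (nearPairs_card (K := 1) (B := 64 * X) p1 p2).2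
        exact_mod_cast this.trans (by omega)
      have a2 : ((nearPairs t.1 t.2 H X).card : ℝ) ≤ (2 * ((X : ℝ) + ((t.1.gcd t.2 : ℕ) : ℝ))) * H := by
        have := (nearPairs_card (K := H) (B := X) p1 p2).1
        refine le_trans (Nat.cast_le.mpr this) ?_
        push_cast
        gcongr
        have : (0 : ℝ) ≤ ((t.1.gcd t.2 : ℕ) : ℝ) := Nat.cast_nonneg _
        linarith
      refine mul_le_mul a1 ((pow_le_pow_left₀ (Nat.cast_nonneg _) a2 m).trans ?_) (by positivity)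
        (by positivity)
      rw [mul_pow, mul_pow, mul_comm _ ((H : ℝ) ^ m)]
      refine mul_le_mul_of_nonneg_left ?_ (by positivity)
      rw [mul_assoc]
      refine mul_le_mul_of_nonneg_left ((add_pow_le (by positivity) (by positivity) m).trans ?_)
        (by positivity)
      gcongr
      · norm_num
      · omega
    refine h1.trans ?_
    have h2 : ∑ t ∈ (Finset.Ico Q (2 * Q)) ×ˢ (Finset.Ico Q (2 * Q)), ((t.1.gcd t.2 : ℕ) : ℝ) ^ m
        ≤ ((2 * Q : ℕ) : ℝ) ^ (m + 1) * (M : ℝ) := by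
      have hs : (Finset.Ico Q (2 * Q)) ×ˢ (Finset.Ico Q (2 * Q))
          ⊆ Finset.Ioc 0 (2 * Q) ×ˢ Finset.Ioc 0 (2 * Q) := by
        intro t ht
        simp only [Finset.mem_product, Finset.mem_Ico, Finset.mem_Ioc] at ht ⊢
        omega
      refine (Finset.sum_le_sum_of_subset_of_nonneg hs (fun _ _ _ => by positivity)).trans
        ((gcd_pow_sum hm _).trans ?_)
      gcongr
      rw [hQdef]; push_cast
      rw [Real.log_mul (by norm_num) (by positivity), Real.log_pow]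
      have : Real.log 2 ≤ 1 := by linarith [Real.log_two_lt_d9]
      have h9 : 0 ≤ ((m : ℝ) + 1) * Real.log M := by positivity
      push_cast
      linarith
    simp only [← Finset.mul_sum]
    rw [Finset.sum_add_distrib, Finset.sum_const, Finset.card_product, Nat.card_Ico, nsmul_eq_mul]
    have e : ((2 * Q - Q) * (2 * Q - Q) : ℕ) = Q * Q := by
      rw [two_mul, Nat.add_sub_cancel]
    rw [e]
    push_cast at h2 ⊢
    calc 128 * (X : ℝ) * ((H : ℝ) ^ m * (2 ^ m * (2 : ℝ) ^ m * ((Q : ℝ) * Q * (X : ℝ) ^ m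
          + ∑ t ∈ (Finset.Ico Q (2 * Q)) ×ˢ (Finset.Ico Q (2 * Q)), ((t.1.gcd t.2 : ℕ) : ℝ) ^ m)))
        ≤ 128 * (X : ℝ) * ((H : ℝ) ^ m * (2 ^ m * (2 : ℝ) ^ m * ((Q : ℝ) * Q * (X : ℝ) ^ m
          + (2 * (Q : ℝ)) ^ (m + 1) * M))) := by gcongr
      _ = C * ((Q : ℝ) ^ 2 * ((H : ℝ) * Q) ^ m) := by
          rw [hC, hQdef, hHdef, hXdef]
          push_cast
          ring
  have hCs := second_moment volume I (arcBox m M) (fun i _ => hmeas i) (fun i _ => hfin i)
  rw [← hE, Finset.sum_congr rfl (fun i _ => hvol i), Finset.sum_const, nsmul_eq_mul] at hCs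
  have hEfin : volume (arcSet m M) ≠ ⊤ := by
    rw [hE]
    exact ne_of_lt (measure_biUnion_lt_top I.finite_toSet fun i _ => (hfin i).lt_top)
  rw [← ENNReal.le_ofReal_iff_toReal_le hEfin measureReal_nonneg |>.mpr le_rfl |>.antisymm'
    (le_of_eq (ENNReal.ofReal_toReal hEfin))]
  refine ENNReal.ofReal_le_ofReal ?_
  have hVQ : (Q : ℝ) ^ 2 * ((H : ℝ) * Q) ^ m * V = 1 / (4 * 128 ^ m) := by
    rw [hV, hQdef, hHdef]
    push_cast
    rw [show (2 : ℝ) * (1 / (256 * (M : ℝ) ^ (2 * m + 4))) = 1 / (128 * (M : ℝ) ^ (2 * m + 4)) by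
      field_simp; ring, div_pow, one_pow, mul_pow]
    field_simp
    ring
  have hP : (Pr.card : ℝ) ≤ (1 + 4 * C) * I.card := by
    have : (Pr.card : ℝ) ≤ I.card + T.card := by exact_mod_cast hPcard
    have hC0 : 0 ≤ C := by positivity
    nlinarith
  clear_value I S Pr T A
  set E := volume.real (arcSet m M) with hEdef
  have hE0 : 0 ≤ E := measureReal_nonneg
  have hI0 : (0 : ℝ) < I.card := by
    have : (0 : ℝ) < (Q : ℝ) ^ 2 / 4 * ((H : ℝ) * Q) ^ m := by
      have : (0 : ℝ) < Q := by exact_mod_cast hQ0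
      have : (0 : ℝ) < H := by exact_mod_cast pow_pos hM0 (m + 2)
      positivity
    linarith
  have h5 : ((I.card : ℝ) * V) ^ 2 ≤ E * ((1 + 4 * C) * I.card * V) :=
    hCs.trans (mul_le_mul_of_nonneg_left (hL2.trans (mul_le_mul_of_nonneg_right hP hV0.le)) hE0)
  have h6 : (I.card : ℝ) * V ≤ E * (1 + 4 * C) := by
    have h8 : 0 < (I.card : ℝ) * V := mul_pos hI0 hV0
    refine le_of_mul_le_mul_left (le_trans (le_of_eq ?_) (h5.trans (le_of_eq ?_))) h8
    · ring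
    · ring
  have h7 : 1 / (16 * 128 ^ m) ≤ (I.card : ℝ) * V := by
    refine le_trans (le_of_eq ?_) (mul_le_mul_of_nonneg_right hIcard hV0.le)
    rw [div_mul_eq_mul_div, div_mul_eq_mul_div, hVQ]
    field_simp
    ring
  rw [one_div_mul_eq_div, div_le_iff₀ (by positivity)]
  exact h7.trans h6

end Vale.Agent.P076.Endpoint
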