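import Mathlib

/-!
Quadratic Gauss sums to an odd modulus: the complete sum has size `√q`, and a partial sum
of any length is its share of the complete sum up to `√q (2 + log q)`.
-/

namespace Vale.Agent.P076.Endpoint

open Finset ComplexConjugate

variable {q : ℕ} [NeZero q]

/-- The quadratic phase `x ↦ e((α x + β x²)/q)`. -/
noncomputable def qphase (α β x : ZMod q) : ℂ := ZMod.stdAddChar (α * x + β * x ^ 2)

lemma norm_qphase (α β x : ZMod q) : ‖qphase α β x‖ = 1 := by
  rw [qphase, ZMod.stdAddChar_apply]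
  exact Circle.norm_coe _

lemma complete_gauss (α β : ZMod q) (hb : IsUnit (2 * β)) :
    ‖∑ x, qphase α β x‖ = Real.sqrt q := by
  have h1 : (∑ x, qphase α β x) * conj (∑ y, qphase α β y) = (q : ℂ) := by
    rw [map_sum, Finset.sum_mul_sum, Finset.sum_comm]
    have step : ∀ y : ZMod q, ∑ x, qphase α β x * conj (qphase α β y)
        = ∑ h, ZMod.stdAddChar (α * h + β * h ^ 2) * ZMod.stdAddChar (y * (2 * β * h)) := by
      intro y
      rw [← Equiv.sum_comp (Equiv.addLeft y)]
      refine Finset.sum_congr rfl fun h _ => ?_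
      simp only [qphase, Equiv.coe_addLeft]
      rw [← AddChar.map_neg_eq_conj, ← AddChar.map_add_eq_mul, ← AddChar.map_add_eq_mul]
      congr 1
      ring
    rw [Finset.sum_congr rfl fun y _ => step y, Finset.sum_comm]
    have inner : ∀ h : ZMod q,
        ∑ y, ZMod.stdAddChar (α * h + β * h ^ 2) * ZMod.stdAddChar (y * (2 * β * h))
        = if h = 0 then (q : ℂ) else 0 := by
      intro h
      rw [← Finset.mul_sum]
      have hs := AddChar.sum_mulShift (2 * β * h) (ZMod.isPrimitive_stdAddChar q)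
      rw [hs]
      by_cases h0 : h = 0
      · subst h0
        simp
      · have : 2 * β * h ≠ 0 := fun e => h0 (hb.mul_right_eq_zero.mp e)
        simp [this, h0]
    rw [Finset.sum_congr rfl fun h _ => inner h]
    simp
  rw [Complex.mul_conj, Complex.normSq_eq_norm_sq] at h1
  have h2 : ‖∑ x, qphase α β x‖ ^ 2 = (q : ℝ) := by exact_mod_cast h1
  rw [← h2, Real.sqrt_sq (norm_nonneg _)]

/-- A geometric sum of powers of `e(h/q)` is bounded by `q/(2 min(h,q-h))`. -/
lemma geom_bound {h : ℕ} (h0 : 0 < h) (hq : h < q) (L : ℕ) :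
    ‖∑ l ∈ range L, (ZMod.stdAddChar ((h : ZMod q)) : ℂ) ^ l‖
      ≤ (q : ℝ) / (2 * h) + (q : ℝ) / (2 * ((q - h : ℕ) : ℝ)) := by
  set z : ℂ := ZMod.stdAddChar ((h : ZMod q)) with hz
  have hzexp : z = Complex.exp (((2 * Real.pi * h / q : ℝ) : ℂ) * Complex.I) := by
    have := ZMod.stdAddChar_coe (N := q) (h : ℤ)
    rw [hz]
    simp only [Int.cast_natCast] at this
    rw [this]
    congr 1
    push_cast
    ring
  have hn : ‖z‖ = 1 := by rw [hzexp, Complex.norm_exp_ofReal_mul_I]
  have hqr : (0 : ℝ) < q := by exact_mod_cast lt_trans h0 hq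
  have hh : (0 : ℝ) < h := by exact_mod_cast h0
  have hh' : (0 : ℝ) < ((q - h : ℕ) : ℝ) := by exact_mod_cast Nat.sub_pos_of_lt hq
  have hsub : ((q - h : ℕ) : ℝ) = (q : ℝ) - h := by
    rw [Nat.cast_sub hq.le]
  have hlow : 2 / ((q : ℝ) / (2 * h) + (q : ℝ) / (2 * ((q - h : ℕ) : ℝ))) ≤ ‖z - 1‖ := by
    have e : ‖z - 1‖ = 2 * |Real.sin (Real.pi * h / q)| := by
      rw [hzexp]
      rw [mul_comm (((2 * Real.pi * h / q : ℝ) : ℂ)) Complex.I, Complex.norm_exp_I_mul_ofReal_sub_one]
      rw [Real.norm_eq_abs, abs_mul]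
      congr 1
      · norm_num
      · congr 2
        ring
    rw [e]
    rcases le_total (2 * (h : ℝ)) q with hle | hle
    · have hx0 : 0 ≤ Real.pi * h / q := by positivity
      have hx1 : Real.pi * h / q ≤ Real.pi / 2 := by
        rw [div_le_div_iff₀ hqr two_pos]
        nlinarith [Real.pi_pos]
      have hs := Real.mul_le_sin hx0 hx1
      have : 2 / Real.pi * (Real.pi * h / q) = 2 * h / q := by
        field_simp
      rw [this] at hs
      calc 2 / ((q : ℝ) / (2 * h) + (q : ℝ) / (2 * ((q - h : ℕ) : ℝ)))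
          ≤ 2 / ((q : ℝ) / (2 * h)) := by
            apply div_le_div_of_nonneg_left (by norm_num) (by positivity)
            exact le_add_of_nonneg_right (by positivity)
        _ = 2 * (2 * h / q) := by field_simp
        _ ≤ _ := by
            gcongr
            exact hs.trans (le_abs_self _)
    · have hpos : (0 : ℝ) ≤ (q : ℝ) - h := by rw [← hsub]; positivity
      have hx0 : 0 ≤ Real.pi * ((q : ℝ) - h) / q := by positivity
      have hx1 : Real.pi * ((q : ℝ) - h) / q ≤ Real.pi / 2 := by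
        rw [div_le_div_iff₀ hqr two_pos]
        nlinarith [Real.pi_pos]
      have hs := Real.mul_le_sin hx0 hx1
      have : 2 / Real.pi * (Real.pi * ((q : ℝ) - h) / q) = 2 * ((q : ℝ) - h) / q := by
        field_simp
      rw [this] at hs
      have hs2 : Real.sin (Real.pi * ((q : ℝ) - h) / q) = Real.sin (Real.pi * h / q) := by
        have : Real.pi * ((q : ℝ) - h) / q = Real.pi - Real.pi * h / q := by field_simp
        rw [this, Real.sin_pi_sub]
      rw [hs2] at hs
      calc 2 / ((q : ℝ) / (2 * h) + (q : ℝ) / (2 * ((q - h : ℕ) : ℝ)))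
          ≤ 2 / ((q : ℝ) / (2 * ((q - h : ℕ) : ℝ))) := by
            apply div_le_div_of_nonneg_left (by norm_num) (by positivity)
            exact le_add_of_nonneg_left (by positivity)
        _ = 2 * (2 * ((q : ℝ) - h) / q) := by rw [hsub]; field_simp
        _ ≤ _ := by
            gcongr
            exact hs.trans (le_abs_self _)
  have hz1 : z ≠ 1 := by
    intro e
    rw [e] at hlow
    simp at hlow
    have : 0 < 2 / ((q : ℝ) / (2 * h) + (q : ℝ) / (2 * ((q - h : ℕ) : ℝ))) := by positivity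
    linarith
  have hne : 0 < ‖z - 1‖ := norm_pos_iff.mpr (sub_ne_zero.mpr hz1)
  have key : ‖∑ l ∈ range L, z ^ l‖ * ‖z - 1‖ ≤ 2 := by
    rw [← norm_mul, geom_sum_mul]
    calc ‖z ^ L - 1‖ ≤ ‖z ^ L‖ + ‖(1 : ℂ)‖ := norm_sub_le _ _
      _ = 2 := by rw [norm_pow, hn]; norm_num
  have hX : 0 < (q : ℝ) / (2 * h) + (q : ℝ) / (2 * ((q - h : ℕ) : ℝ)) := by positivity
  rw [div_le_iff₀ hX] at hlow
  calc ‖∑ l ∈ range L, z ^ l‖ ≤ 2 / ‖z - 1‖ := (le_div_iff₀ hne).mpr key
    _ ≤ _ := by
      rw [div_le_iff₀ hne]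
      linarith [hlow]

lemma incomplete_gauss (α β : ZMod q) (hb : IsUnit (2 * β)) {L : ℕ} (hL : L ≤ q) :
    ‖∑ l ∈ range L, qphase α β (l : ZMod q)‖ ≤ Real.sqrt q * (2 + Real.log q) := by
  have hqpos : 0 < q := NeZero.pos q
  have hqr : (0 : ℝ) < q := by exact_mod_cast hqpos
  have hrep : (q : ℂ) * ∑ l ∈ range L, qphase α β (l : ZMod q)
      = ∑ h : ZMod q, (∑ l ∈ range L, ZMod.stdAddChar h ^ l) * ∑ x, qphase (α - h) β x := by
    have e : ∀ h : ZMod q, (∑ l ∈ range L, ZMod.stdAddChar h ^ l) * ∑ x, qphase (α - h) β x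
        = ∑ l ∈ range L, ∑ x, qphase α β x * ZMod.stdAddChar (h * ((l : ZMod q) - x)) := by
      intro h
      rw [Finset.sum_mul_sum]
      refine Finset.sum_congr rfl fun l _ => Finset.sum_congr rfl fun x _ => ?_
      simp only [qphase]
      rw [← AddChar.map_nsmul_eq_pow, ← AddChar.map_add_eq_mul, ← AddChar.map_add_eq_mul]
      congr 1
      rw [nsmul_eq_mul]
      ring
    rw [Finset.sum_congr rfl fun h _ => e h, Finset.sum_comm, Finset.mul_sum]
    refine Finset.sum_congr rfl fun l _ => ?_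
    rw [Finset.sum_comm]
    have e2 : ∀ x : ZMod q, ∑ h, qphase α β x * ZMod.stdAddChar (h * ((l : ZMod q) - x))
        = if x = (l : ZMod q) then (q : ℂ) * qphase α β (l : ZMod q) else 0 := by
      intro x
      rw [← Finset.mul_sum, AddChar.sum_mulShift _ (ZMod.isPrimitive_stdAddChar q)]
      by_cases hx : x = (l : ZMod q)
      · subst hx; simp [mul_comm]
      · have : ¬ ((l : ZMod q) - x = 0) := fun e => hx (sub_eq_zero.mp e).symm
        simp [this, hx]
    rw [Finset.sum_congr rfl fun x _ => e2 x]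
    simp
  have hbound : (q : ℝ) * ‖∑ l ∈ range L, qphase α β (l : ZMod q)‖
      ≤ Real.sqrt q * ∑ h : ZMod q, ‖∑ l ∈ range L, ZMod.stdAddChar h ^ l‖ := by
    have := congrArg (fun z : ℂ => ‖z‖) hrep
    simp only [norm_mul, Complex.norm_natCast] at this
    rw [this, Finset.mul_sum]
    refine (norm_sum_le _ _).trans (Finset.sum_le_sum fun h _ => ?_)
    rw [norm_mul, complete_gauss _ _ hb, mul_comm]
  have hsum : ∑ h : ZMod q, ‖∑ l ∈ range L, ZMod.stdAddChar h ^ l‖
      ≤ (q : ℝ) * (2 + Real.log q) := by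
    have e : ∑ h : ZMod q, ‖∑ l ∈ range L, ZMod.stdAddChar h ^ l‖
        = ∑ j ∈ range q, ‖∑ l ∈ range L, (ZMod.stdAddChar ((j : ZMod q)) : ℂ) ^ l‖ := by
      refine Finset.sum_nbij' (fun h => h.val) (fun j => (j : ZMod q)) ?_ ?_ ?_ ?_ ?_
      · intro h _; simpa using ZMod.val_lt h
      · intro j _; simp
      · intro h _; simp
      · intro j hj; simpa using ZMod.val_cast_of_lt (by simpa using hj)
      · intro h _; simp
    rw [e]
    obtain ⟨p, rfl⟩ := Nat.exists_eq_succ_of_ne_zero hqpos.ne'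
    rw [Finset.sum_range_succ']
    have h00 : ‖∑ l ∈ range L, (ZMod.stdAddChar (((0 : ℕ) : ZMod (p + 1))) : ℂ) ^ l‖
        ≤ ((p + 1 : ℕ) : ℝ) := by
      have : (L : ℝ) ≤ ((p + 1 : ℕ) : ℝ) := by exact_mod_cast hL
      simpa using this
    have h1 : ∑ j ∈ range p, ‖∑ l ∈ range L, (ZMod.stdAddChar (((j + 1 : ℕ) : ZMod (p + 1))) : ℂ) ^ l‖
        ≤ ∑ j ∈ range p, (((p + 1 : ℕ) : ℝ) / 2 * (1 / ((j : ℝ) + 1))
            + ((p + 1 : ℕ) : ℝ) / 2 * (1 / (((p - 1 - j : ℕ) : ℝ) + 1))) := by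
      refine Finset.sum_le_sum fun j hj => ?_
      have hjp : j < p := Finset.mem_range.mp hj
      refine (geom_bound (q := p + 1) (h := j + 1) (Nat.succ_pos _) (by omega) L).trans (le_of_eq ?_)
      have : (p + 1 - (j + 1) : ℕ) = (p - 1 - j) + 1 := by omega
      rw [this]
      push_cast
      field_simp
    have hlog : ∑ j ∈ range p, (1 / ((j : ℝ) + 1)) ≤ 1 + Real.log ((p + 1 : ℕ) : ℝ) := by
      have hh := harmonic_le_one_add_log p
      have eq : ((harmonic p : ℚ) : ℝ) = ∑ j ∈ range p, (1 / ((j : ℝ) + 1)) := by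
        simp [harmonic, one_div]
      rw [eq] at hh
      refine hh.trans ?_
      rcases Nat.eq_zero_or_pos p with rfl | hp
      · simp
      · gcongr
        linarith
    rw [Finset.sum_add_distrib, ← Finset.mul_sum, ← Finset.mul_sum,
      Finset.sum_range_reflect (fun j => 1 / ((j : ℝ) + 1)) p] at h1
    push_cast at *
    nlinarith
  have := hbound.trans (mul_le_mul_of_nonneg_left hsum (Real.sqrt_nonneg _))
  nlinarith [this, hqr]

/-- Sums of any length `L ≤ N`, when `√q (3 + log q) ≤ N/(4√q)`. -/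
lemma gauss_sum_bounds (α β : ZMod q) (hb : IsUnit (2 * β)) {N : ℕ}
    (hN : 4 * (q : ℝ) * (3 + Real.log q) ≤ N) :
    (∀ L ≤ N, ‖∑ l ∈ range L, qphase α β (l : ZMod q)‖ ≤ 5 / 4 * (N / Real.sqrt q)) ∧
      3 / 4 * (N / Real.sqrt q) ≤ ‖∑ l ∈ range N, qphase α β (l : ZMod q)‖ := by
  have hqpos : 0 < q := NeZero.pos q
  have hqr : (0 : ℝ) < q := by exact_mod_cast hqpos
  have hs : (0 : ℝ) < Real.sqrt q := Real.sqrt_pos.mpr hqr
  have hss : Real.sqrt q * Real.sqrt q = q := Real.mul_self_sqrt hqr.le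
  have hlog : 0 ≤ Real.log q := Real.log_nonneg (by exact_mod_cast hqpos)
  have hfull : ∀ L : ℕ, ∑ l ∈ range q, qphase α β ((L + l : ℕ) : ZMod q) = ∑ x, qphase α β x := by
    intro L
    refine Finset.sum_nbij' (fun l => ((L + l : ℕ) : ZMod q)) (fun x => (x - (L : ZMod q)).val)
      ?_ ?_ ?_ ?_ ?_
    · intro l _; simp
    · intro x _; simpa using ZMod.val_lt _
    · intro l hl; simpa using ZMod.val_cast_of_lt (by simpa using hl)
    · intro x _; simp
    · intro l _; simp
  have hper : ∀ k r : ℕ, ∑ l ∈ range (k * q + r), qphase α β (l : ZMod q)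
      = (k : ℂ) * (∑ x, qphase α β x) + ∑ l ∈ range r, qphase α β (l : ZMod q) := by
    intro k r
    induction k with
    | zero => simp
    | succ k ih =>
      have : (k + 1) * q + r = k * q + r + q := by ring
      rw [this, Finset.sum_range_add, ih, hfull]
      push_cast
      ring
  have hrem : ∀ r, r ≤ q → ‖∑ l ∈ range r, qphase α β (l : ZMod q)‖
      ≤ Real.sqrt q * (2 + Real.log q) := fun r hr => incomplete_gauss α β hb hr
  have hG := complete_gauss α β hb
  have hsmall : Real.sqrt q * (3 + Real.log q) ≤ 1 / 4 * (N / Real.sqrt q) := by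
    rw [← mul_div_assoc, le_div_iff₀ hs]
    nlinarith
  have split : ∀ L : ℕ, L / q * q + L % q = L := fun L => by
    rw [mul_comm]; exact Nat.div_add_mod L q
  have hk : ∀ L : ℕ, ((L / q : ℕ) : ℝ) * Real.sqrt q ≤ L / Real.sqrt q ∧
      L / Real.sqrt q - Real.sqrt q ≤ ((L / q : ℕ) : ℝ) * Real.sqrt q := by
    intro L
    have e : ((L / q : ℕ) : ℝ) * q + ((L % q : ℕ) : ℝ) = L := by exact_mod_cast split L
    have hr : ((L % q : ℕ) : ℝ) ≤ q := by exact_mod_cast (Nat.mod_lt L hqpos).le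
    have h0 : (0 : ℝ) ≤ ((L % q : ℕ) : ℝ) := Nat.cast_nonneg _
    constructor
    · rw [le_div_iff₀ hs, mul_assoc, hss]; linarith
    · rw [sub_le_iff_le_add, div_le_iff₀ hs, add_mul, mul_assoc, hss]; linarith
  constructor
  · intro L hL
    conv_lhs => rw [← split L, hper]
    refine (norm_add_le _ _).trans ?_
    rw [norm_mul, Complex.norm_natCast, hG]
    have h2 := hrem _ (Nat.mod_lt L hqpos).le
    have h3 := (hk L).1
    have h4 : (L : ℝ) / Real.sqrt q ≤ N / Real.sqrt q := by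
      gcongr
    nlinarith
  · have e : ∑ l ∈ range N, qphase α β (l : ZMod q) = ((N / q : ℕ) : ℂ) * (∑ x, qphase α β x)
        + ∑ l ∈ range (N % q), qphase α β (l : ZMod q) := by
      rw [← hper, split N]
    rw [e]
    have h2 := hrem _ (Nat.mod_lt N hqpos).le
    have h5 : ‖((N / q : ℕ) : ℂ) * (∑ x, qphase α β x)‖ - ‖∑ l ∈ range (N % q), qphase α β (l : ZMod q)‖
        ≤ ‖((N / q : ℕ) : ℂ) * (∑ x, qphase α β x)
        + ∑ l ∈ range (N % q), qphase α β (l : ZMod q)‖ := norm_sub_le_norm_add _ _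
    rw [norm_mul, Complex.norm_natCast, hG] at h5
    have h3 := (hk N).2
    nlinarith

end Vale.Agent.P076.Endpoint
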