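import Vale.Agent.P076.Endpoint.Gauss

/-!
One dimensional oscillatory integrals: the main factor, the comb factor near a rational,
and the non-stationary bound used at a fixed positive time.
-/

namespace Vale.Agent.P076.Endpoint

open Finset MeasureTheory Complex

lemma exp_I_sub_le (A B : ℝ) : ‖exp (I * (A : ℂ)) - exp (I * (B : ℂ))‖ ≤ |A - B| := by
  have e : exp (I * (A : ℂ)) - exp (I * (B : ℂ))
      = exp (I * (B : ℂ)) * (exp (I * ((A - B : ℝ) : ℂ)) - 1) := by
    rw [mul_sub, ← Complex.exp_add, mul_one]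
    congr 2
    push_cast
    ring
  rw [e, norm_mul, Complex.norm_exp_I_mul_ofReal, one_mul]
  exact Real.norm_exp_I_mul_ofReal_sub_one_le

lemma norm_integral_near {a b ε : ℝ} {f : ℝ → ℂ} (z : ℂ) (hab : a ≤ b)
    (hf : IntervalIntegrable f volume a b) (h : ∀ x ∈ Set.Icc a b, ‖f x - z‖ ≤ ε) :
    (b - a) * (‖z‖ - ε) ≤ ‖∫ x in a..b, f x‖ := by
  have h1 : ‖∫ x in a..b, (f x - z)‖ ≤ ε * |b - a| :=
    intervalIntegral.norm_integral_le_of_norm_le_const fun x hx => by
      rw [Set.uIoc_of_le hab] at hx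
      exact h x (Set.Ioc_subset_Icc_self hx)
  rw [intervalIntegral.integral_sub hf intervalIntegrable_const,
    intervalIntegral.integral_const, abs_of_nonneg (by linarith)] at h1
  have h2 : ‖(b - a) • z‖ = (b - a) * ‖z‖ := by
    rw [norm_smul, Real.norm_eq_abs, abs_of_nonneg (by linarith)]
  have h3 : ‖(b - a) • z‖ ≤ ‖∫ x in a..b, f x‖ + ‖(∫ x in a..b, f x) - (b - a) • z‖ :=
    norm_le_insert _ _
  nlinarith

lemma main_factor {R x t : ℝ} (hR : 0 < R) (ht : 0 ≤ t) (htR : t * R ≤ 1 / 128)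
    (hx : Real.sqrt R * |x - 2 * t * R| ≤ 1 / 4) :
    Real.sqrt R / 2 ≤ ‖∫ η in R..(R + Real.sqrt R),
      exp (I * ((x * η - t * η ^ 2 : ℝ) : ℂ))‖ := by
  have hs : 0 ≤ Real.sqrt R := Real.sqrt_nonneg R
  have h := norm_integral_near (f := fun η => exp (I * ((x * η - t * η ^ 2 : ℝ) : ℂ)))
    (ε := 1 / 2) (exp (I * ((x * R - t * R ^ 2 : ℝ) : ℂ)))
    (show R ≤ R + Real.sqrt R by linarith) (Continuous.intervalIntegrable (by fun_prop) _ _)
    (fun η hη => by
      refine (exp_I_sub_le _ _).trans ?_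
      obtain ⟨h1, h2⟩ := hη
      have e : x * η - t * η ^ 2 - (x * R - t * R ^ 2)
          = (η - R) * (x - 2 * t * R) - t * (η - R) ^ 2 := by ring
      rw [e]
      refine (abs_sub _ _).trans ?_
      have a1 : |(η - R) * (x - 2 * t * R)| ≤ 1 / 4 := by
        rw [abs_mul]
        refine le_trans ?_ hx
        gcongr
        rw [abs_le]; constructor <;> linarith
      have a2 : |t * (η - R) ^ 2| ≤ 1 / 128 := by
        rw [abs_of_nonneg (by positivity)]
        refine le_trans ?_ htR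
        gcongr
        calc (η - R) ^ 2 ≤ Real.sqrt R ^ 2 := pow_le_pow_left₀ (by linarith) (by linarith) 2
          _ = R := Real.sq_sqrt hR.le
      linarith)
  rw [Complex.norm_exp_I_mul_ofReal] at h
  linarith

lemma twisted_sum (f : ℕ → ℂ) (z : ℂ) (N : ℕ) :
    ∑ l ∈ range N, f l * (z ^ (l + 1) - 1)
      = (∑ l ∈ range N, f l) * (z ^ N - 1)
        - ∑ l ∈ range N, (∑ i ∈ range l, f i) * (z ^ (l + 1) - z ^ l) := by
  induction N with
  | zero => simp
  | succ N ih =>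
    rw [Finset.sum_range_succ, Finset.sum_range_succ (fun l => f l), ih,
      Finset.sum_range_succ (fun l => (∑ i ∈ range l, f i) * (z ^ (l + 1) - z ^ l))]
    ring

lemma twisted_bound {f : ℕ → ℂ} {N : ℕ} {B δ : ℝ}
    (hB : ∀ L ≤ N, ‖∑ l ∈ range L, f l‖ ≤ B) :
    ‖∑ l ∈ range N, f l * exp (I * ((δ * (l + 1) : ℝ) : ℂ)) - ∑ l ∈ range N, f l‖
      ≤ 2 * B * (N * |δ|) := by
  set z : ℂ := exp (I * (δ : ℂ)) with hz
  have hB0 : 0 ≤ B := le_trans (norm_nonneg _) (hB 0 (Nat.zero_le _))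
  have hp : ∀ k : ℕ, z ^ k = exp (I * ((δ * k : ℝ) : ℂ)) := fun k => by
    rw [hz, ← Complex.exp_nat_mul]; congr 1; push_cast; ring
  have e : ∑ l ∈ range N, f l * exp (I * ((δ * (l + 1) : ℝ) : ℂ)) - ∑ l ∈ range N, f l
      = ∑ l ∈ range N, f l * (z ^ (l + 1) - 1) := by
    rw [← Finset.sum_sub_distrib]
    refine Finset.sum_congr rfl fun l _ => ?_
    rw [hp]; push_cast; ring
  rw [e, twisted_sum]
  refine (norm_sub_le _ _).trans ?_
  have a1 : ‖(∑ l ∈ range N, f l) * (z ^ N - 1)‖ ≤ B * (N * |δ|) := by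
    rw [norm_mul]
    refine mul_le_mul (hB N le_rfl) ?_ (norm_nonneg _) hB0
    rw [hp]
    have := exp_I_sub_le (δ * N) 0
    simp only [Complex.ofReal_zero, mul_zero, Complex.exp_zero, sub_zero, abs_mul,
      Nat.abs_cast] at this
    linarith
  have a2 : ‖∑ l ∈ range N, (∑ i ∈ range l, f i) * (z ^ (l + 1) - z ^ l)‖ ≤ B * (N * |δ|) := by
    refine (norm_sum_le _ _).trans ?_
    calc ∑ l ∈ range N, ‖(∑ i ∈ range l, f i) * (z ^ (l + 1) - z ^ l)‖
        ≤ ∑ l ∈ range N, B * |δ| := by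
          refine Finset.sum_le_sum fun l hl => ?_
          rw [norm_mul]
          refine mul_le_mul (hB l (Finset.mem_range.mp hl).le) ?_ (norm_nonneg _) hB0
          rw [hp, hp]
          refine (exp_I_sub_le _ _).trans (le_of_eq ?_)
          push_cast
          congr 1; ring
      _ = _ := by simp; ring
  linarith

lemma qphase_eq_exp {q : ℕ} [NeZero q] (j : ℤ) :
    (ZMod.stdAddChar ((j : ZMod q)) : ℂ) = exp (I * ((2 * Real.pi * j / q : ℝ) : ℂ)) := by
  rw [ZMod.stdAddChar_coe]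
  congr 1
  push_cast
  ring

lemma comb_factor {q p a N : ℕ} (hq : Odd q) (hcop : a.Coprime q)
    (hN : 4 * (q : ℝ) * (3 + Real.log q) ≤ N) {y t D ε : ℝ}
    (hy : y * D = 2 * Real.pi * p / q + ε) (ht : t * D ^ 2 = 2 * Real.pi * a / q)
    (he : |ε| * N ≤ 1 / 32) (htN : 2 * |t * D| * N ≤ 1 / 32) (hsmall : |y| + |t| ≤ 1 / 4) :
    (N : ℝ) / (4 * Real.sqrt q) ≤ ‖∫ η in (-1 : ℝ)..1, ∑ l ∈ range N,
      exp (I * ((y * (D * (l + 1) + η) - t * (D * (l + 1) + η) ^ 2 : ℝ) : ℂ))‖ := by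
  have : NeZero q := ⟨fun e => by simp [e] at hq⟩
  set α : ZMod q := (p : ZMod q) - 2 * (a : ZMod q) with hα
  set β : ZMod q := -(a : ZMod q) with hβ
  have hb : IsUnit (2 * β) := by
    rw [hβ, mul_neg]
    refine (IsUnit.mul ?_ ((ZMod.isUnit_iff_coprime a q).mpr hcop)).neg
    exact_mod_cast (ZMod.isUnit_iff_coprime 2 q).mpr (Nat.coprime_two_left.mpr hq)
  obtain ⟨hup, hlo⟩ := gauss_sum_bounds α β hb hN
  set K : ℂ := exp (I * ((2 * Real.pi * ((p : ℤ) - a : ℤ) / q : ℝ) : ℂ)) with hK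
  set f : ℕ → ℂ := fun l => K * qphase α β (l : ZMod q) with hf
  have hKn : ‖K‖ = 1 := Complex.norm_exp_I_mul_ofReal _
  set Y : ℝ := (N : ℝ) / Real.sqrt q with hY
  have hfs : ∀ L, ∑ l ∈ range L, f l = K * ∑ l ∈ range L, qphase α β (l : ZMod q) := fun L => by
    rw [hf, Finset.mul_sum]
  have hupf : ∀ L ≤ N, ‖∑ l ∈ range L, f l‖ ≤ 5 / 4 * Y := fun L hL => by
    rw [hfs, norm_mul, hKn, one_mul]; exact hup L hL
  set z := ∑ l ∈ range N, f l with hz
  have hzlo : 3 / 4 * Y ≤ ‖z‖ := by rw [hz, hfs, norm_mul, hKn, one_mul]; exact hlo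
  have key : ∀ η ∈ Set.Icc (-1 : ℝ) 1, ‖(∑ l ∈ range N,
      exp (I * ((y * (D * (l + 1) + η) - t * (D * (l + 1) + η) ^ 2 : ℝ) : ℂ))) - z‖ ≤ 15 / 32 * Y := by
    intro η hη
    set δ := ε - 2 * t * D * η with hδ
    have hterm : ∀ l : ℕ, exp (I * ((y * (D * (l + 1) + η) - t * (D * (l + 1) + η) ^ 2 : ℝ) : ℂ))
        = exp (I * ((y * η - t * η ^ 2 : ℝ) : ℂ)) * (f l * exp (I * ((δ * (l + 1) : ℝ) : ℂ))) := by
      intro l
      have e1 : qphase α β (l : ZMod q)
          = exp (I * ((2 * Real.pi * ((((p : ℤ) - 2 * a) * l - a * (l : ℤ) ^ 2 : ℤ)) / q : ℝ) : ℂ)) := by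
        rw [← qphase_eq_exp, qphase]
        congr 1
        rw [hα, hβ]
        push_cast
        ring
      simp only [hf, hK, e1, ← Complex.exp_add]
      congr 1
      rw [← mul_add, ← mul_add, ← mul_add]
      congr 1
      rw [← Complex.ofReal_add, ← Complex.ofReal_add, ← Complex.ofReal_add]
      congr 1
      have : y * (D * (l + 1) + η) - t * (D * (l + 1) + η) ^ 2
          = (y * η - t * η ^ 2) + ((2 * Real.pi * p / q) * (l + 1) - (2 * Real.pi * a / q) * (l + 1) ^ 2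
            + δ * (l + 1)) := by
        rw [hδ, ← ht, show 2 * Real.pi * p / q = y * D - ε by linarith]
        ring
      rw [this]
      push_cast
      ring
    rw [Finset.sum_congr rfl fun l _ => hterm l, ← Finset.mul_sum]
    set S := ∑ l ∈ range N, f l * exp (I * ((δ * (l + 1) : ℝ) : ℂ)) with hS
    have h1 : ‖S - z‖ ≤ 2 * (5 / 4 * Y) * (N * |δ|) := twisted_bound hupf
    have hη1 : |η| ≤ 1 := abs_le.mpr hη
    have hδN : (N : ℝ) * |δ| ≤ 1 / 16 := by
      have hd : |δ| ≤ |ε| + 2 * |t * D| := by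
        refine (abs_sub _ _).trans (add_le_add le_rfl ?_)
        rw [show 2 * t * D * η = 2 * (t * D) * η by ring, abs_mul, abs_mul, abs_two]
        exact mul_le_of_le_one_right (by positivity) hη1
      have := mul_le_mul_of_nonneg_left hd (Nat.cast_nonneg N)
      linarith
    have h2 : ‖exp (I * ((y * η - t * η ^ 2 : ℝ) : ℂ)) - 1‖ ≤ 1 / 4 := by
      refine le_trans Real.norm_exp_I_mul_ofReal_sub_one_le ?_
      rw [Real.norm_eq_abs]
      refine ((abs_sub _ _).trans ?_).trans hsmall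
      rw [abs_mul, abs_mul, abs_pow]
      exact add_le_add (mul_le_of_le_one_right (abs_nonneg _) hη1)
        (mul_le_of_le_one_right (abs_nonneg _) (pow_le_one₀ (abs_nonneg _) hη1))
    have hY0 : 0 ≤ Y := by positivity
    have e : exp (I * ((y * η - t * η ^ 2 : ℝ) : ℂ)) * S - z
        = exp (I * ((y * η - t * η ^ 2 : ℝ) : ℂ)) * (S - z)
          + (exp (I * ((y * η - t * η ^ 2 : ℝ) : ℂ)) - 1) * z := by ring
    rw [e]
    refine (norm_add_le _ _).trans ?_
    rw [norm_mul, norm_mul, Complex.norm_exp_I_mul_ofReal, one_mul]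
    have h3 : ‖z‖ ≤ 5 / 4 * Y := hupf N le_rfl
    have h4 := mul_le_mul h2 h3 (norm_nonneg _) (by norm_num)
    nlinarith
  have h := norm_integral_near z (show (-1 : ℝ) ≤ 1 by norm_num)
    (Continuous.intervalIntegrable (by fun_prop) _ _) key
  have e : (N : ℝ) / (4 * Real.sqrt q) = Y / 4 := by rw [hY]; ring
  have hY0 : 0 ≤ Y := by positivity
  linarith

lemma nonstationary {α β y t a : ℝ} (hα : 0 < α) (hab : α ≤ β) (ht : 0 < t) (ha : 0 ≤ a)
    (hy : |y| ≤ t * α) :
    ‖∫ η in α..β, exp (I * ((y * η : ℝ) : ℂ) - (I * (t : ℂ) + (a : ℂ)) * ((η ^ 2 : ℝ) : ℂ))‖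
      ≤ 5 / (t * α) := by
  set w : ℂ := I * (t : ℂ) + (a : ℂ) with hw
  set E : ℝ → ℂ := fun η => exp (I * ((y * η : ℝ) : ℂ) - w * ((η ^ 2 : ℝ) : ℂ)) with hE
  set h : ℝ → ℂ := fun η => I * (y : ℂ) - 2 * w * (η : ℂ) with hh
  have hge : ∀ η, α ≤ η → t * η ≤ ‖h η‖ ∧ 2 * a * η ≤ ‖h η‖ := by
    intro η hη
    have h1 : (h η).im = y - 2 * t * η := by simp [hh, hw]
    have h2 : (h η).re = -(2 * a * η) := by simp [hh, hw]
    constructor
    · refine le_trans ?_ (Complex.abs_im_le_norm _)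
      rw [h1]
      have : t * α ≤ t * η := by gcongr
      have := (abs_le.mp hy).2
      refine le_trans ?_ (neg_le_abs _)
      linarith
    · refine le_trans ?_ (Complex.abs_re_le_norm _)
      rw [h2, abs_neg]
      exact le_abs_self _
  have hne : ∀ η, α ≤ η → h η ≠ 0 := by
    intro η hη e
    have := (hge η hη).1
    rw [e, norm_zero] at this
    have : 0 < t * η := mul_pos ht (lt_of_lt_of_le hα hη)
    linarith
  have hEn : ∀ η, ‖E η‖ ≤ 1 := by
    intro η
    rw [hE, Complex.norm_exp]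
    simp only [hw, Complex.sub_re, Complex.mul_re, Complex.add_re, Complex.add_im, Complex.I_re,
      Complex.I_im, Complex.ofReal_re, Complex.ofReal_im, Complex.mul_im, zero_mul, mul_zero,
      sub_zero, add_zero, zero_add, one_mul, zero_sub]
    refine Real.exp_le_one_iff.mpr ?_
    nlinarith [sq_nonneg η]
  have hd : ∀ η ∈ Set.uIcc α β, HasDerivAt (fun η => E η / h η)
      (E η + E η * (2 * w) / h η ^ 2) η := by
    intro η hη
    rw [Set.uIcc_of_le hab] at hη
    have d0 : HasDerivAt (fun s : ℝ => (s : ℂ)) 1 η := (hasDerivAt_id η).ofReal_comp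
    have dh : HasDerivAt h (-(2 * w)) η := by
      have := (d0.const_mul (2 * w)).const_sub (I * (y : ℂ))
      simpa [hh] using this
    have dE : HasDerivAt E (E η * h η) η := by
      have d1 : HasDerivAt (fun s : ℝ => I * (y : ℂ) * (s : ℂ) - w * ((s : ℂ) * (s : ℂ)))
          (I * (y : ℂ) * 1 - w * (1 * (η : ℂ) + (η : ℂ) * 1)) η :=
        (d0.const_mul _).sub ((d0.mul d0).const_mul w)
      have d2 := d1.cexp
      have e : E = fun s : ℝ => exp (I * (y : ℂ) * (s : ℂ) - w * ((s : ℂ) * (s : ℂ))) := by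
        funext s; simp only [hE]; congr 1; push_cast; ring
      rw [e]
      convert d2 using 1
      simp only [hh]
      ring
    refine (dE.div dh (hne η hη.1)).congr_deriv ?_
    have := hne η hη.1
    field_simp
    ring
  have hcontE : Continuous E := by fun_prop
  have hcont : ContinuousOn (fun η => E η * (2 * w) / h η ^ 2) (Set.uIcc α β) := by
    rw [Set.uIcc_of_le hab]
    exact ContinuousOn.div (by fun_prop) (by fun_prop) fun η hη => pow_ne_zero _ (hne η hη.1)
  have hint := intervalIntegral.integral_eq_sub_of_hasDerivAt hd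
    ((hcontE.intervalIntegrable _ _).add hcont.intervalIntegrable)
  rw [intervalIntegral.integral_add (hcontE.intervalIntegrable _ _) hcont.intervalIntegrable] at hint
  have hbd : ∀ η, α ≤ η → ‖E η / h η‖ ≤ 1 / (t * α) := by
    intro η hη
    rw [norm_div]
    have := (hge η hη).1
    have h0 : 0 < t * α := mul_pos ht hα
    have h1 : t * α ≤ t * η := by gcongr
    exact div_le_div₀ zero_le_one (hEn η) h0 (h1.trans this)
  have hrem : ‖∫ η in α..β, E η * (2 * w) / h η ^ 2‖ ≤ 3 / (t * α) := by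
    have hpt : ∀ η ∈ Set.Ioc α β, ‖E η * (2 * w) / h η ^ 2‖ ≤ 3 / t * (η ^ (-2 : ℤ)) := by
      intro η hη
      obtain ⟨g1, g2⟩ := hge η hη.1.le
      have hη0 : 0 < η := hα.trans hη.1
      have hh0 : 0 < ‖h η‖ := lt_of_lt_of_le (mul_pos ht hη0) g1
      rw [norm_div, norm_mul, norm_mul, norm_pow, Complex.norm_ofNat]
      have hwn : ‖w‖ ≤ t + a := by
        refine (norm_add_le _ _).trans ?_
        simp [abs_of_pos ht, abs_of_nonneg ha]
      have h3 : 2 * ‖w‖ * η ≤ 3 * ‖h η‖ := by nlinarith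
      calc ‖E η‖ * (2 * ‖w‖) / ‖h η‖ ^ 2 ≤ 1 * (2 * ‖w‖) / ‖h η‖ ^ 2 := by gcongr; exact hEn η
        _ ≤ 3 / (η * ‖h η‖) := by
            rw [one_mul, div_le_div_iff₀ (by positivity) (by positivity)]
            nlinarith
        _ ≤ 3 / (η * (t * η)) := by gcongr
        _ = _ := by rw [zpow_neg, zpow_two]; field_simp
    have hci : IntervalIntegrable (fun η : ℝ => 3 / t * η ^ (-2 : ℤ)) volume α β := by
      refine ContinuousOn.intervalIntegrable ?_
      rw [Set.uIcc_of_le hab]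
      exact continuousOn_const.mul (ContinuousOn.zpow₀ continuousOn_id _
        fun η hη => Or.inl (lt_of_lt_of_le hα hη.1).ne')
    refine (intervalIntegral.norm_integral_le_of_norm_le hab
      (Filter.Eventually.of_forall hpt) hci).trans ?_
    rw [intervalIntegral.integral_const_mul, integral_zpow (Or.inr ⟨by norm_num, by
      rw [Set.uIcc_of_le hab]; exact fun hm => absurd hm.1 (not_le.mpr hα)⟩)]
    norm_num
    have hb0 : 0 ≤ 3 / (t * β) := div_nonneg (by norm_num) (mul_nonneg ht.le (by linarith))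
    have e : 3 / t * ((β⁻¹ - α⁻¹) / -1) = 3 / (t * α) - 3 / (t * β) := by field_simp; ring
    rw [e]; linarith
  have hb1 := hbd β hab
  have hb2 := hbd α le_rfl
  have e : ∫ η in α..β, E η = (E β / h β - E α / h α) - ∫ η in α..β, E η * (2 * w) / h η ^ 2 := by
    rw [← hint]; ring
  show ‖∫ η in α..β, E η‖ ≤ _
  rw [e]
  refine ((norm_sub_le _ _).trans (add_le_add (norm_sub_le _ _) le_rfl)).trans ?_
  have : 5 / (t * α) = 1 / (t * α) + 1 / (t * α) + 3 / (t * α) := by ring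
  linarith

end Vale.Agent.P076.Endpoint
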