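import Vale.Agent.P076.Endpoint.Count
import Vale.Agent.P076.Endpoint.OneDim

/-!
The wave packet: its size, its lower bound on the arc set, the bound at fixed positive time,
and the behaviour under scaling and translation.
-/

namespace Vale.Agent.P076.Endpoint

open Finset MeasureTheory Complex
open scoped RealInnerProductSpace

/-- The regularised evolution with frequency profile `F`. -/
noncomputable def evo {n : ℕ} (F : EuclideanSpace ℝ (Fin n) → ℂ) (a : ℝ)
    (x : EuclideanSpace ℝ (Fin n)) (t : ℝ) : ℂ :=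
  ((2 * Real.pi) ^ n : ℝ)⁻¹ • ∫ ξ : EuclideanSpace ℝ (Fin n),
    exp (I * (⟪x, ξ⟫ : ℝ) - I * (t : ℂ) * (‖ξ‖ ^ 2 : ℝ) - (a : ℂ) * (‖ξ‖ ^ 2 : ℝ)) * F ξ

/-- The modulating factor of the evolution has size at most one. -/
lemma norm_phase_le {a : ℝ} (ha : 0 ≤ a) (w t r : ℝ) (hr : 0 ≤ r) :
    ‖exp (I * (w : ℂ) - I * (t : ℂ) * (r : ℂ) - (a : ℂ) * (r : ℂ))‖ ≤ 1 := by
  rw [Complex.norm_exp]
  simp only [Complex.sub_re, Complex.mul_re, Complex.mul_im, Complex.I_re, Complex.I_im,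
    Complex.ofReal_re, Complex.ofReal_im, zero_mul, mul_zero, sub_zero, add_zero, zero_sub,
    zero_add, one_mul, neg_zero]
  exact Real.exp_le_one_iff.mpr (neg_nonpos.mpr (mul_nonneg ha hr))

/-- Frequency scale. -/
noncomputable def pR (m M : ℕ) : ℝ := Real.pi * (M : ℝ) ^ (2 * m + 4)
/-- Comb spacing. -/
noncomputable def pD (m M : ℕ) : ℝ := 16 * Real.pi * (M : ℝ) ^ (m + 2)
/-- Number of teeth. -/
def pN (m M : ℕ) : ℕ := M ^ (m + 2) / 8
/-- Amplitude. -/
noncomputable def pAmp (m M : ℕ) : ℝ :=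
  (Real.sqrt (pR m M) * Real.sqrt ((M : ℝ) ^ ((m + 3) * m)))⁻¹

/-- The one dimensional cut-offs. -/
noncomputable def pFactor (m M : ℕ) : Fin (m + 1) → ℝ → ℝ :=
  Fin.cons (α := fun _ => ℝ → ℝ)
    ((Set.Icc (pR m M) (pR m M + Real.sqrt (pR m M))).indicator fun _ => 1)
    fun _ s => ∑ l ∈ range (pN m M),
      (Set.Icc (pD m M * (l + 1) - 1) (pD m M * (l + 1) + 1)).indicator (fun _ => (1 : ℝ)) s

/-- The packet. -/
noncomputable def packet (m M : ℕ) (ξ : EuclideanSpace ℝ (Fin (m + 1))) : ℂ :=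
  ((pAmp m M * ∏ i, pFactor m M i (ξ i) : ℝ) : ℂ)

/-- Admissible parameters. -/
def Good (m M : ℕ) : Prop := Big m M ∧ 8 ∣ M

variable {m M : ℕ}

lemma Good.eight_le (h : Good m M) : 8 ≤ M := Nat.le_of_dvd h.1.2.1 h.2

lemma Good.cast_pN (h : Good m M) : (pN m M : ℝ) = (M : ℝ) ^ (m + 2) / 8 := by
  rw [pN, Nat.cast_div (h.2.trans (dvd_pow_self M (by omega))) (by norm_num)]
  push_cast
  ring

lemma Good.basic (h : Good m M) :
    1 ≤ pR m M ∧ 8 ≤ pD m M ∧ pD m M ≤ pR m M ∧ (pN m M : ℝ) * pD m M = 2 * pR m M ∧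
      (pN m M : ℝ) ≤ pD m M := by
  have h8 : (8 : ℝ) ≤ M := by exact_mod_cast h.eight_le
  have h1 : (1 : ℝ) ≤ (M : ℝ) ^ (m + 2) := one_le_pow₀ (by linarith)
  have hpi := Real.pi_gt_three
  refine ⟨?_, ?_, ?_, ?_, ?_⟩
  · have : (1 : ℝ) ≤ (M : ℝ) ^ (2 * m + 4) := one_le_pow₀ (by linarith)
    rw [pR]; nlinarith
  · rw [pD]; nlinarith
  · rw [pR, pD, show 2 * m + 4 = (m + 2) + (m + 2) by ring, pow_add (M : ℝ) (m + 2) (m + 2)]
    have : (16 : ℝ) ≤ (M : ℝ) ^ (m + 2) :=
      le_trans (by nlinarith) (pow_le_pow_right₀ (by linarith) (show 2 ≤ m + 2 by omega))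
    calc 16 * Real.pi * (M : ℝ) ^ (m + 2) = Real.pi * (16 * (M : ℝ) ^ (m + 2)) := by ring
      _ ≤ _ := by gcongr
  · rw [h.cast_pN, pR, pD]; ring
  · rw [h.cast_pN, pD]; nlinarith

lemma amp_pos (h : Good m M) : 0 < pAmp m M := by
  have h8 : (0 : ℝ) < M := by exact_mod_cast lt_of_lt_of_le (by norm_num) h.eight_le
  have := h.basic.1
  rw [pAmp]
  positivity

lemma amp_le_one (h : Good m M) : pAmp m M ≤ 1 := by
  rw [pAmp]
  refine inv_le_one_of_one_le₀ (one_le_mul_of_one_le_of_one_le ?_ ?_)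
  · exact Real.one_le_sqrt.mpr h.basic.1
  · exact Real.one_le_sqrt.mpr (one_le_pow₀ (by exact_mod_cast le_trans (by norm_num) h.eight_le))

lemma teeth_disjoint (h : Good m M) {k l : ℕ} (hkl : k ≠ l) (s : ℝ) :
    (Set.Icc (pD m M * (k + 1) - 1) (pD m M * (k + 1) + 1)).indicator (fun _ => (1 : ℝ)) s *
      (Set.Icc (pD m M * (l + 1) - 1) (pD m M * (l + 1) + 1)).indicator (fun _ => (1 : ℝ)) s = 0 := by
  by_cases hk : s ∈ Set.Icc (pD m M * (k + 1) - 1) (pD m M * (k + 1) + 1)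
  · by_cases hl : s ∈ Set.Icc (pD m M * (l + 1) - 1) (pD m M * (l + 1) + 1)
    · exfalso
      obtain ⟨a1, a2⟩ := hk
      obtain ⟨b1, b2⟩ := hl
      have hD := h.basic.2.1
      rcases lt_or_gt_of_ne hkl with hh | hh
      · have : (k : ℝ) + 1 ≤ l := by exact_mod_cast hh
        nlinarith
      · have : (l : ℝ) + 1 ≤ k := by exact_mod_cast hh
        nlinarith
    · simp [Set.indicator_of_notMem hl]
  · simp [Set.indicator_of_notMem hk]

lemma factor_sq (h : Good m M) (i : Fin (m + 1)) (s : ℝ) :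
    pFactor m M i s ^ 2 = pFactor m M i s := by
  refine Fin.cases ?_ (fun j => ?_) i
  · simp only [pFactor, Fin.cons_zero]
    by_cases hs : s ∈ Set.Icc (pR m M) (pR m M + Real.sqrt (pR m M))
    · simp [Set.indicator_of_mem hs]
    · simp [Set.indicator_of_notMem hs]
  · simp only [pFactor, Fin.cons_succ]
    rw [sq, Finset.sum_mul_sum]
    refine Finset.sum_congr rfl fun k hk => ?_
    rw [Finset.sum_eq_single k (fun l _ hl => teeth_disjoint h hl.symm s) (fun e => absurd hk e)]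
    by_cases hs : s ∈ Set.Icc (pD m M * (k + 1) - 1) (pD m M * (k + 1) + 1)
    · simp [Set.indicator_of_mem hs]
    · simp [Set.indicator_of_notMem hs]

lemma factor_le_one (h : Good m M) (i : Fin (m + 1)) (s : ℝ) :
    0 ≤ pFactor m M i s ∧ pFactor m M i s ≤ 1 := by
  have := factor_sq h i s
  constructor
  · nlinarith [sq_nonneg (pFactor m M i s)]
  · nlinarith [sq_nonneg (pFactor m M i s - 1)]

lemma factor_measurable (i : Fin (m + 1)) : Measurable (pFactor m M i) := by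
  refine Fin.cases ?_ (fun j => ?_) i
  · simp only [pFactor, Fin.cons_zero]
    exact measurable_const.indicator measurableSet_Icc
  · simp only [pFactor, Fin.cons_succ]
    exact Finset.measurable_sum _ fun l _ => measurable_const.indicator measurableSet_Icc

lemma factor_support (h : Good m M) {i : Fin (m + 1)} {s : ℝ} (hs : pFactor m M i s ≠ 0) :
    0 ≤ s ∧ s ≤ 3 * pR m M ∧ (i = 0 → pR m M ≤ s) := by
  obtain ⟨hR, hD, -, hND, -⟩ := h.basic
  revert hs
  refine Fin.cases ?_ (fun j => ?_) i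
  · intro hs
    simp only [pFactor, Fin.cons_zero, ne_eq, Set.indicator_apply_eq_zero] at hs
    have hm : s ∈ Set.Icc (pR m M) (pR m M + Real.sqrt (pR m M)) := by
      by_contra hc; exact hs fun x => absurd x hc
    have : Real.sqrt (pR m M) ≤ pR m M := Real.sqrt_le_iff.mpr ⟨by linarith, by nlinarith⟩
    exact ⟨by linarith [hm.1], by linarith [hm.2], fun _ => hm.1⟩
  · intro hs
    simp only [pFactor, Fin.cons_succ] at hs
    obtain ⟨l, hl, hne⟩ := Finset.exists_ne_zero_of_sum_ne_zero hs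
    have hm : s ∈ Set.Icc (pD m M * (l + 1) - 1) (pD m M * (l + 1) + 1) := by
      by_contra hc; exact hne (Set.indicator_of_notMem hc _)
    have hlN : (l : ℝ) + 1 ≤ pN m M := by exact_mod_cast Finset.mem_range.mp hl
    have h0 : (0 : ℝ) ≤ l := Nat.cast_nonneg l
    refine ⟨by nlinarith [hm.1], by nlinarith [hm.2], fun e => absurd e (Fin.succ_ne_zero j)⟩

lemma packet_support (h : Good m M) {ξ : EuclideanSpace ℝ (Fin (m + 1))} (hξ : packet m M ξ ≠ 0) :
    pR m M ≤ ‖ξ‖ ∧ ‖ξ‖ ≤ 3 * (m + 1) * pR m M := by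
  simp only [packet, ne_eq, Complex.ofReal_eq_zero, mul_eq_zero, not_or, Finset.prod_eq_zero_iff,
    not_exists, not_and] at hξ
  have hs := fun i => factor_support h (hξ.2 i (Finset.mem_univ _))
  have hR := h.basic.1
  constructor
  · refine le_trans ((hs 0).2.2 rfl) (le_trans (le_abs_self _) ?_)
    simpa using PiLp.norm_apply_le ξ 0
  · refine (sq_le_sq₀ (norm_nonneg _) (by positivity)).mp ?_
    rw [EuclideanSpace.real_norm_sq_eq]
    calc ∑ i, ξ i ^ 2 ≤ ∑ _i : Fin (m + 1), (3 * pR m M) ^ 2 := by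
          refine Finset.sum_le_sum fun i _ => pow_le_pow_left₀ (hs i).1 (hs i).2.1 2
      _ = ((m : ℝ) + 1) * (3 * pR m M) ^ 2 := by simp
      _ ≤ _ := by
          have : (1 : ℝ) ≤ (m : ℝ) + 1 := by linarith [Nat.cast_nonneg (α := ℝ) m]
          nlinarith [sq_nonneg (3 * pR m M), mul_le_mul_of_nonneg_right this (sq_nonneg (3 * pR m M))]

lemma packet_measurable : Measurable (packet m M) := by
  refine Complex.measurable_ofReal.comp (measurable_const.mul
    (Finset.measurable_prod _ fun i _ => (factor_measurable i).comp ?_))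
  exact (EuclideanSpace.proj (𝕜 := ℝ) i).continuous.measurable

lemma packet_norm_le (h : Good m M) (ξ : EuclideanSpace ℝ (Fin (m + 1))) : ‖packet m M ξ‖ ≤ 1 := by
  rw [packet, Complex.norm_real, Real.norm_eq_abs, abs_of_nonneg (mul_nonneg (amp_pos h).le
    (Finset.prod_nonneg fun i _ => (factor_le_one h i _).1))]
  exact mul_le_one₀ (amp_le_one h) (Finset.prod_nonneg fun i _ => (factor_le_one h i _).1)
    (Finset.prod_le_one (fun i _ => (factor_le_one h i _).1) fun i _ => (factor_le_one h i _).2)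

lemma packet_integrable (h : Good m M) : Integrable (packet m M) := by
  have hb : IntegrableOn (packet m M) (Metric.closedBall 0 (3 * (m + 1) * pR m M)) :=
    Measure.integrableOn_of_bounded (measure_closedBall_lt_top.ne)
      packet_measurable.aestronglyMeasurable (Filter.Eventually.of_forall (packet_norm_le h))
  refine hb.integrable_of_forall_notMem_eq_zero fun ξ hξ => ?_
  by_contra hne
  exact hξ (mem_closedBall_zero_iff.mpr (packet_support h hne).2)

lemma euclid_integral_prod {n : ℕ} {E : Type*} [RCLike E] (f : Fin n → ℝ → E) :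
    ∫ ξ : EuclideanSpace ℝ (Fin n), ∏ i, f i (ξ i) = ∏ i, ∫ s, f i s := by
  rw [← (PiLp.volume_preserving_toLp (Fin n)).integral_comp
    (MeasurableEquiv.toLp 2 (Fin n → ℝ)).measurableEmbedding]
  exact integral_fintype_prod_volume_eq_prod f

lemma packet_l2 (h : Good m M) :
    ∫ ξ, ‖packet m M ξ‖ ^ 2 ≤ ((M : ℝ) ^ (2 * m + 2))⁻¹ := by
  have e : ∀ ξ : EuclideanSpace ℝ (Fin (m + 1)),
      ‖packet m M ξ‖ ^ 2 = pAmp m M ^ 2 * ∏ i, pFactor m M i (ξ i) := by
    intro ξ
    rw [packet, Complex.norm_real, Real.norm_eq_abs, sq_abs, mul_pow, ← Finset.prod_pow]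
    exact congrArg _ (Finset.prod_congr rfl fun i _ => factor_sq h i _)
  simp only [e]
  rw [integral_const_mul, euclid_integral_prod, Fin.prod_univ_succ]
  obtain ⟨hR, -, -, -, -⟩ := h.basic
  have h0 : ∫ s, pFactor m M 0 s = Real.sqrt (pR m M) := by
    simp only [pFactor, Fin.cons_zero]
    rw [integral_indicator measurableSet_Icc, setIntegral_const, smul_eq_mul, mul_one,
      Real.volume_real_Icc_of_le (by linarith [Real.sqrt_nonneg (pR m M)])]
    ring
  have h1 : ∀ j : Fin m, ∫ s, pFactor m M j.succ s = 2 * (pN m M : ℝ) := by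
    intro j
    simp only [pFactor, Fin.cons_succ]
    rw [integral_finsetSum _ fun l _ => by
      exact (integrableOn_const (μ := volume) (by simp) (by simp)).integrable_indicator measurableSet_Icc]
    rw [Finset.sum_congr rfl (g := fun _ => (2 : ℝ)) fun l _ => by
      rw [integral_indicator measurableSet_Icc, setIntegral_const, smul_eq_mul, mul_one,
        Real.volume_real_Icc_of_le (by linarith)]
      ring]
    simp [mul_comm]
  rw [h0, Finset.prod_congr rfl fun j _ => h1 j, Finset.prod_const, Finset.card_univ,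
    Fintype.card_fin, h.cast_pN, pAmp]
  have hM : (0 : ℝ) < M := by exact_mod_cast lt_of_lt_of_le (by norm_num) h.eight_le
  rw [inv_pow, mul_pow, Real.sq_sqrt (by linarith), Real.sq_sqrt (by positivity)]
  have hs : (M : ℝ) ^ (m + 2) ≤ Real.sqrt (pR m M) := by
    refine Real.le_sqrt_of_sq_le ?_
    rw [← pow_mul, pR, show (m + 2) * 2 = 2 * m + 4 by ring]
    exact le_mul_of_one_le_left (by positivity) (by linarith [Real.pi_gt_three])
  have hp : (2 * ((M : ℝ) ^ (m + 2) / 8)) ^ m ≤ (M : ℝ) ^ ((m + 2) * m) := by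
    rw [pow_mul]
    refine pow_le_pow_left₀ (by positivity) ?_ m
    linarith [pow_pos hM (m + 2)]
  have hs0 : 0 < Real.sqrt (pR m M) := Real.sqrt_pos.mpr (by linarith)
  calc (pR m M * (M : ℝ) ^ ((m + 3) * m))⁻¹ * (Real.sqrt (pR m M) * (2 * ((M : ℝ) ^ (m + 2) / 8)) ^ m)
      ≤ (pR m M * (M : ℝ) ^ ((m + 3) * m))⁻¹ * (Real.sqrt (pR m M) * (M : ℝ) ^ ((m + 2) * m)) := by
        have hR0 : 0 ≤ pR m M := by linarith
        gcongr
    _ = (Real.sqrt (pR m M) * (M : ℝ) ^ m)⁻¹ := by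
        rw [show (m + 3) * m = (m + 2) * m + m by ring, pow_add]
        nth_rewrite 1 [← Real.mul_self_sqrt (show 0 ≤ pR m M by linarith)]
        field_simp
    _ ≤ _ := by
        gcongr
        calc (M : ℝ) ^ (2 * m + 2) = (M : ℝ) ^ (m + 2) * (M : ℝ) ^ m := by ring
          _ ≤ _ := by gcongr

/-- One dimensional pieces of the evolution of the packet. -/
noncomputable def oneDim (m M : ℕ) (a t : ℝ) (i : Fin (m + 1)) (y : ℝ) : ℂ :=
  ∫ s : ℝ, exp (I * ((y * s : ℝ) : ℂ) - (I * (t : ℂ) + (a : ℂ)) * ((s ^ 2 : ℝ) : ℂ)) *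
    (pFactor m M i s : ℂ)

lemma evo_packet (a : ℝ) (x : EuclideanSpace ℝ (Fin (m + 1))) (t : ℝ) :
    evo (packet m M) a x t
      = ((2 * Real.pi) ^ (m + 1) : ℝ)⁻¹ • ((pAmp m M : ℂ) * ∏ i, oneDim m M a t i (x i)) := by
  simp only [evo, oneDim]
  congr 1
  rw [← euclid_integral_prod, ← integral_const_mul]
  refine integral_congr_ae (Filter.Eventually.of_forall fun ξ => ?_)
  simp only [packet, Complex.ofReal_mul, Complex.ofReal_prod]
  rw [Finset.prod_mul_distrib, ← Complex.exp_sum, Finset.sum_sub_distrib, ← Finset.mul_sum,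
    ← Finset.mul_sum]
  have hi : ⟪x, ξ⟫ = ∑ i, x i * ξ i := by
    simp [PiLp.inner_apply, mul_comm]
  rw [hi, EuclideanSpace.real_norm_sq_eq]
  push_cast
  ring_nf

lemma indicator_integral {a b : ℝ} (hab : a ≤ b) (φ : ℝ → ℂ) :
    ∫ s, φ s * (((Set.Icc a b).indicator (fun _ => (1 : ℝ)) s : ℝ) : ℂ) = ∫ s in a..b, φ s := by
  rw [intervalIntegral.integral_of_le hab, ← integral_Icc_eq_integral_Ioc,
    ← integral_indicator measurableSet_Icc]
  refine integral_congr_ae (Filter.Eventually.of_forall fun s => ?_)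
  by_cases hs : s ∈ Set.Icc a b
  · simp [Set.indicator_of_mem hs]
  · simp [Set.indicator_of_notMem hs]

lemma oneDim_zero (a t y : ℝ) (h : Good m M) :
    oneDim m M a t 0 y = ∫ s in pR m M..(pR m M + Real.sqrt (pR m M)),
      exp (I * ((y * s : ℝ) : ℂ) - (I * (t : ℂ) + (a : ℂ)) * ((s ^ 2 : ℝ) : ℂ)) := by
  simp only [oneDim, pFactor, Fin.cons_zero]
  exact indicator_integral (by linarith [Real.sqrt_nonneg (pR m M), h.basic.1]) _

lemma oneDim_succ (a t y : ℝ) (j : Fin m) :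
    oneDim m M a t j.succ y = ∑ l ∈ range (pN m M),
      ∫ s in (pD m M * (l + 1) - 1)..(pD m M * (l + 1) + 1),
        exp (I * ((y * s : ℝ) : ℂ) - (I * (t : ℂ) + (a : ℂ)) * ((s ^ 2 : ℝ) : ℂ)) := by
  simp only [oneDim, pFactor, Fin.cons_succ, Complex.ofReal_sum, Finset.mul_sum]
  rw [integral_finsetSum]
  · exact Finset.sum_congr rfl fun l _ => indicator_integral (by linarith) _
  · intro l _
    have : IntegrableOn (fun s : ℝ => exp (I * ((y * s : ℝ) : ℂ)
        - (I * (t : ℂ) + (a : ℂ)) * ((s ^ 2 : ℝ) : ℂ)))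
        (Set.Icc (pD m M * (l + 1) - 1) (pD m M * (l + 1) + 1)) :=
      Continuous.integrableOn_Icc (by fun_prop)
    refine (this.integrable_indicator measurableSet_Icc).congr
      (Filter.Eventually.of_forall fun s => ?_)
    by_cases hs : s ∈ Set.Icc (pD m M * (l + 1) - 1) (pD m M * (l + 1) + 1)
    · simp [Set.indicator_of_mem hs]
    · simp [Set.indicator_of_notMem hs]

/-- The constant in the lower bound. -/
noncomputable def lowC (m : ℕ) : ℝ := ((2 * Real.pi) ^ (m + 1))⁻¹ / (2 * 48 ^ m)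

lemma packet_lower (h : Good m M) (x : EuclideanSpace ℝ (Fin (m + 1)))
    (hx : (fun i => x i) ∈ arcSet m M) :
    ∃ t, 1 / (256 * (M : ℝ) ^ (m + 1) * pR m M) ≤ t ∧ t ≤ 1 / (128 * pR m M) ∧
      lowC m ≤ ‖evo (packet m M) 0 x t‖ := by
  obtain ⟨q, a, hqa, p, hp, h0, h1⟩ := hx
  simp only [labels, Finset.mem_filter, Finset.mem_product, Finset.mem_Ico, Finset.mem_range] at hqa
  obtain ⟨⟨⟨hQ1, hQ2⟩, -⟩, hodd, haq, hcop⟩ := hqa
  set R := pR m M with hRdef
  set D := pD m M with hDdef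
  set N := pN m M with hNdef
  obtain ⟨hR1, hD8, hDR, hND, -⟩ := h.basic
  have hRpos : 0 < R := lt_of_lt_of_le one_pos hR1
  have hM8 : (8 : ℝ) ≤ M := by exact_mod_cast h.eight_le
  have hMpos : (0 : ℝ) < M := by linarith
  have hQ : (M : ℝ) ^ (m + 1) ≤ q := by exact_mod_cast hQ1
  have hq2 : (q : ℝ) ≤ 2 * (M : ℝ) ^ (m + 1) := by exact_mod_cast hQ2.le
  have hq : (0 : ℝ) < q := lt_of_lt_of_le (pow_pos hMpos _) hQ
  have haq' : (a : ℝ) ≤ q := by exact_mod_cast haq.le
  have ha1 : (1 : ℝ) ≤ a := by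
    have : a ≠ 0 := by
      rintro rfl
      have : q = 1 := by simpa using hcop
      have h3 : 8 ≤ M ^ (m + 1) := h.eight_le.trans (Nat.le_self_pow (by omega) M)
      omega
    exact_mod_cast Nat.one_le_iff_ne_zero.mpr this
  set t : ℝ := (a : ℝ) / (128 * q * R) with ht
  have htpos : 0 < t := by positivity
  have htR : t * R ≤ 1 / 128 := by
    rw [ht, show (a : ℝ) / (128 * q * R) * R = (a / q) * (1 / 128) by field_simp]
    have : (a : ℝ) / q ≤ 1 := (div_le_one hq).mpr haq'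
    linarith
  have ht_hi : t ≤ 1 / (128 * R) := by
    rw [ht, div_le_div_iff₀ (by positivity) (by positivity)]
    nlinarith
  refine ⟨t, ?_, ht_hi, ?_⟩
  · rw [ht, div_le_div_iff₀ (by positivity) (by positivity)]
    calc 1 * (128 * (q : ℝ) * R) ≤ 1 * (256 * (M : ℝ) ^ (m + 1) * R) := by
          rw [one_mul, one_mul]; exact mul_le_mul_of_nonneg_right (by linarith) (by linarith)
      _ ≤ (a : ℝ) * (256 * (M : ℝ) ^ (m + 1) * R) := by gcongr
  -- main factor
  have hmain : Real.sqrt R / 2 ≤ ‖oneDim m M 0 t 0 (x 0)‖ := by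
    rw [oneDim_zero 0 t (x 0) h]
    have := main_factor (x := x 0) (R := R) (t := t) (by linarith) htpos.le htR (by
      have e : 2 * t * R = (a : ℝ) / (64 * q) := by rw [ht]; field_simp; ring
      rw [e]
      have hs : Real.sqrt R ≤ 2 * (M : ℝ) ^ (m + 2) := by
        refine Real.sqrt_le_iff.mpr ⟨by positivity, ?_⟩
        rw [hRdef, pR, mul_pow, ← pow_mul, show (m + 2) * 2 = 2 * m + 4 by ring]
        have := Real.pi_lt_four
        have : (0 : ℝ) < (M : ℝ) ^ (2 * m + 4) := by positivity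
        nlinarith
      calc Real.sqrt R * |x 0 - (a : ℝ) / (64 * q)|
          ≤ 2 * (M : ℝ) ^ (m + 2) * (1 / (8 * (M : ℝ) ^ (m + 2))) := by gcongr
        _ = 1 / 4 := by field_simp; ring)
    refine this.trans (le_of_eq (congrArg norm (intervalIntegral.integral_congr fun s _ => ?_)))
    congr 1
    push_cast
    ring
  -- comb factors
  have hcomb : ∀ j : Fin m, (N : ℝ) / (4 * Real.sqrt q) ≤ ‖oneDim m M 0 t j.succ (x j.succ)‖ := by
    intro j
    set y := x j.succ with hy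
    set ε : ℝ := y * D - 2 * Real.pi * (p j) / q with hε
    have hP : (0 : ℝ) < 8 * (M : ℝ) ^ (m + 2) * q := by positivity
    have hεe : ε = D * (y - (p j : ℝ) / (8 * (M : ℝ) ^ (m + 2) * q)) := by
      rw [hε, hDdef, pD]; field_simp; ring
    have hεN : |ε| * N ≤ 1 / 32 := by
      rw [hεe, abs_mul, abs_of_pos (show (0 : ℝ) < D by linarith)]
      calc D * |y - (p j : ℝ) / (8 * (M : ℝ) ^ (m + 2) * q)| * N
          ≤ D * (1 / (256 * (M : ℝ) ^ (2 * m + 4))) * N := by
            gcongr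
            exact h1 j
        _ = (N * D) / (256 * (M : ℝ) ^ (2 * m + 4)) := by ring
        _ = Real.pi / 128 := by rw [hND, pR]; field_simp; ring
        _ ≤ _ := by linarith [Real.pi_lt_four]
    have htN : 2 * |t * D| * N ≤ 1 / 32 := by
      rw [abs_of_pos (by positivity)]
      calc 2 * (t * D) * N = 4 * (t * R) := by
            rw [show 2 * (t * D) * (N : ℝ) = 2 * t * (N * D) by ring, hND]; ring
        _ ≤ _ := by linarith
    have hsmall : |y| + |t| ≤ 1 / 4 := by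
      have hy1 : |y| ≤ (p j : ℝ) / (8 * (M : ℝ) ^ (m + 2) * q) + 1 / (256 * (M : ℝ) ^ (2 * m + 4)) := by
        have := abs_sub_abs_le_abs_sub y ((p j : ℝ) / (8 * (M : ℝ) ^ (m + 2) * q))
        rw [abs_of_nonneg (by positivity : (0 : ℝ) ≤ (p j : ℝ) / (8 * (M : ℝ) ^ (m + 2) * q))] at this
        linarith [h1 j]
      have hp1 : (p j : ℝ) / (8 * (M : ℝ) ^ (m + 2) * q) ≤ 1 / 8 := by
        rw [div_le_iff₀ hP]
        have : (p j : ℝ) ≤ (M : ℝ) ^ (m + 2) * q := by exact_mod_cast (hp j).le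
        linarith
      have hw : 1 / (256 * (M : ℝ) ^ (2 * m + 4)) ≤ (1 : ℝ) / 256 := by
        gcongr
        exact le_mul_of_one_le_right (by norm_num) (one_le_pow₀ (by linarith))
      have htt : |t| ≤ 1 / 128 := by
        rw [abs_of_pos htpos]
        exact le_trans ht_hi (by gcongr; exact le_mul_of_one_le_right (by norm_num) hR1)
      linarith
    have hgauss : 4 * (q : ℝ) * (3 + Real.log q) ≤ N := by
      have hl : Real.log q ≤ 1 + ((m : ℝ) + 1) * Real.log M := by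
        refine (Real.log_le_log hq hq2).trans ?_
        rw [Real.log_mul (by norm_num) (by positivity), Real.log_pow]
        have := Real.log_two_lt_d9
        push_cast
        linarith
      have hl0 : 0 ≤ Real.log (q : ℝ) := Real.log_nonneg (le_trans (one_le_pow₀ (by linarith)) hQ)
      rw [hNdef, h.cast_pN]
      calc 4 * (q : ℝ) * (3 + Real.log q)
          ≤ 4 * (2 * (M : ℝ) ^ (m + 1)) * (4 + ((m : ℝ) + 1) * Real.log M) :=
            mul_le_mul (by linarith) (by linarith) (by linarith) (by positivity)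
        _ = (M : ℝ) ^ (m + 1) * (64 * (4 + ((m : ℝ) + 1) * Real.log M)) / 8 := by ring
        _ ≤ (M : ℝ) ^ (m + 1) * M / 8 := by gcongr; exact h.1.2.2
        _ = _ := by ring
    refine (comb_factor (p := p j) hodd hcop hgauss (y := y) (t := t) (D := D) (ε := ε)
      (by rw [hε]; ring) ?_ hεN htN hsmall).trans (le_of_eq (congrArg norm ?_))
    · rw [ht, hDdef, hRdef, pD, pR]
      field_simp
      ring
    · rw [oneDim_succ, intervalIntegral.integral_finsetSum
        (fun l _ => Continuous.intervalIntegrable (by fun_prop) _ _)]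
      refine Finset.sum_congr rfl fun l _ => ?_
      rw [show D * ((l : ℝ) + 1) - 1 = D * ((l : ℝ) + 1) + (-1) by ring,
        ← intervalIntegral.integral_comp_add_left _ (D * ((l : ℝ) + 1))]
      refine intervalIntegral.integral_congr fun η _ => ?_
      congr 1
      push_cast
      ring
  rw [evo_packet, norm_smul, Real.norm_eq_abs, abs_of_pos (by positivity), norm_mul,
    Complex.norm_real, Real.norm_eq_abs, abs_of_pos (amp_pos h), norm_prod, Fin.prod_univ_succ,
    lowC, div_eq_mul_inv]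
  refine mul_le_mul_of_nonneg_left ?_ (by positivity)
  have hc2 : ∀ j : Fin m, Real.sqrt ((M : ℝ) ^ (m + 3)) / 48 ≤ ‖oneDim m M 0 t j.succ (x j.succ)‖ := by
    intro j
    refine le_trans ?_ (hcomb j)
    rw [hNdef, h.cast_pN]
    have hs : Real.sqrt q ≤ Real.sqrt (2 * (M : ℝ) ^ (m + 1)) := Real.sqrt_le_sqrt hq2
    have hmono : (M : ℝ) ^ (m + 2) / 8 / (4 * Real.sqrt (2 * (M : ℝ) ^ (m + 1)))
        ≤ (M : ℝ) ^ (m + 2) / 8 / (4 * Real.sqrt q) := by
      have : 0 < Real.sqrt q := Real.sqrt_pos.mpr hq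
      gcongr
    refine le_trans ?_ hmono
    rw [Real.sqrt_mul (by norm_num), div_div, div_le_div_iff₀ (by norm_num) (by positivity)]
    have e : Real.sqrt ((M : ℝ) ^ (m + 3)) * Real.sqrt ((M : ℝ) ^ (m + 1)) = (M : ℝ) ^ (m + 2) := by
      rw [← Real.sqrt_mul (by positivity), ← pow_add,
        show m + 3 + (m + 1) = (m + 2) * 2 by ring, pow_mul, Real.sqrt_sq (by positivity)]
    have h2 : Real.sqrt 2 ≤ 3 / 2 := Real.sqrt_le_iff.mpr ⟨by norm_num, by norm_num⟩
    calc Real.sqrt ((M : ℝ) ^ (m + 3)) * (8 * (4 * (Real.sqrt 2 * Real.sqrt ((M : ℝ) ^ (m + 1)))))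
        = 32 * Real.sqrt 2 * (Real.sqrt ((M : ℝ) ^ (m + 3)) * Real.sqrt ((M : ℝ) ^ (m + 1))) := by ring
      _ ≤ 48 * (Real.sqrt ((M : ℝ) ^ (m + 3)) * Real.sqrt ((M : ℝ) ^ (m + 1))) := by gcongr; linarith
      _ = _ := by rw [e]; ring
  have hprod : (Real.sqrt ((M : ℝ) ^ (m + 3)) / 48) ^ m
      ≤ ∏ j : Fin m, ‖oneDim m M 0 t j.succ (x j.succ)‖ := by
    rw [← Fin.prod_const]
    exact Finset.prod_le_prod (fun _ _ => by positivity) fun j _ => hc2 j
  refine le_trans ?_ (mul_le_mul_of_nonneg_left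
    (mul_le_mul hmain hprod (by positivity) (norm_nonneg _)) (amp_pos h).le)
  refine le_of_eq ?_
  have e : Real.sqrt ((M : ℝ) ^ (m + 3)) ^ m = Real.sqrt ((M : ℝ) ^ ((m + 3) * m)) := by
    rw [pow_mul (M : ℝ)]
    refine ((Real.sqrt_eq_iff_mul_self_eq (by positivity) (by positivity)).mpr ?_).symm
    rw [← mul_pow, Real.mul_self_sqrt (by positivity)]
  rw [div_pow, e, pAmp, ← hRdef]
  have : 0 < Real.sqrt R := Real.sqrt_pos.mpr (by linarith)
  have : 0 < Real.sqrt ((M : ℝ) ^ ((m + 3) * m)) := by positivity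
  field_simp

lemma packet_upper (h : Good m M) {θ X a t : ℝ} (hθ : 0 < θ) (ht : θ ≤ t) (ha : 0 ≤ a)
    (hX : X ≤ θ * pD m M / 4) (x : EuclideanSpace ℝ (Fin (m + 1))) (hx : ∀ i, |x i| ≤ X) :
    ‖evo (packet m M) a x t‖ ≤ (10 / θ) ^ (m + 1) / pR m M := by
  obtain ⟨hR1, hD8, hDR, hND, hNleD⟩ := h.basic
  have htp : 0 < t := lt_of_lt_of_le hθ ht
  have h0 : ‖oneDim m M a t 0 (x 0)‖ ≤ 10 / θ / pR m M := by
    rw [oneDim_zero a t _ h]
    refine (nonstationary (α := pR m M) (by linarith) (le_add_of_nonneg_right (Real.sqrt_nonneg _))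
      htp ha ?_).trans ?_
    · calc |x 0| ≤ θ * pD m M / 4 := (hx 0).trans hX
        _ ≤ θ * pD m M := by nlinarith
        _ ≤ t * pR m M := mul_le_mul ht hDR (by linarith) htp.le
    · rw [div_div]
      exact div_le_div₀ (by norm_num) (by norm_num) (by positivity)
        (mul_le_mul_of_nonneg_right ht (by linarith))
  have h1 : ∀ j : Fin m, ‖oneDim m M a t j.succ (x j.succ)‖ ≤ 10 / θ := by
    intro j
    rw [oneDim_succ]
    refine (norm_sum_le _ _).trans ?_
    calc ∑ l ∈ range (pN m M), ‖∫ s in (pD m M * (l + 1) - 1)..(pD m M * (l + 1) + 1),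
          exp (I * ((x j.succ * s : ℝ) : ℂ) - (I * (t : ℂ) + (a : ℂ)) * ((s ^ 2 : ℝ) : ℂ))‖
        ≤ ∑ _l ∈ range (pN m M), 10 / (θ * pD m M) := by
          refine Finset.sum_le_sum fun l _ => ?_
          have hl : (0 : ℝ) ≤ l := Nat.cast_nonneg l
          have hal : pD m M / 2 ≤ pD m M * (l + 1) - 1 := by nlinarith
          refine (nonstationary (by linarith) (by linarith) htp ha ?_).trans ?_
          · calc |x j.succ| ≤ θ * pD m M / 4 := (hx _).trans hX
              _ ≤ θ * (pD m M / 2) := by nlinarith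
              _ ≤ _ := mul_le_mul ht hal (by linarith) htp.le
          · calc 5 / (t * (pD m M * (l + 1) - 1)) ≤ 5 / (θ * (pD m M / 2)) :=
                  div_le_div_of_nonneg_left (by norm_num) (by positivity)
                    (mul_le_mul ht hal (by linarith) htp.le)
              _ = _ := by field_simp; ring
      _ = (pN m M : ℝ) / pD m M * (10 / θ) := by simp; field_simp
      _ ≤ _ := mul_le_of_le_one_left (by positivity) ((div_le_one (by linarith)).mpr hNleD)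
  rw [evo_packet, norm_smul, Real.norm_eq_abs, abs_of_pos (by positivity), norm_mul,
    Complex.norm_real, Real.norm_eq_abs, abs_of_pos (amp_pos h), norm_prod, Fin.prod_univ_succ]
  have hpr : ∏ j : Fin m, ‖oneDim m M a t j.succ (x j.succ)‖ ≤ (10 / θ) ^ m := by
    rw [← Fin.prod_const]
    exact Finset.prod_le_prod (fun _ _ => norm_nonneg _) fun j _ => h1 j
  have hpi : ((2 * Real.pi) ^ (m + 1) : ℝ)⁻¹ ≤ 1 :=
    inv_le_one_of_one_le₀ (one_le_pow₀ (by linarith [Real.pi_gt_three]))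
  have hR0 : (0 : ℝ) < pR m M := by linarith
  have hP := mul_le_mul h0 hpr (Finset.prod_nonneg fun j _ => norm_nonneg _) (by positivity)
  refine le_trans (mul_le_of_le_one_left (mul_nonneg (amp_pos h).le (by positivity)) hpi) ?_
  refine le_trans (mul_le_of_le_one_left (by positivity) (amp_le_one h)) ?_
  refine hP.trans (le_of_eq ?_)
  ring

/-- The scaled translated packet. -/
noncomputable def piece (m M : ℕ) (δ : ℝ) (v : EuclideanSpace ℝ (Fin (m + 1)))
    (ξ : EuclideanSpace ℝ (Fin (m + 1))) : ℂ :=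
  ((δ ^ (m + 1) : ℝ) : ℂ) * exp (-(I * (⟪v, ξ⟫ : ℝ))) * packet m M (δ • ξ)

lemma piece_support (h : Good m M) {δ : ℝ} (hδ : 0 < δ) {v ξ : EuclideanSpace ℝ (Fin (m + 1))}
    (hξ : piece m M δ v ξ ≠ 0) :
    pR m M / δ ≤ ‖ξ‖ ∧ ‖ξ‖ ≤ 3 * (m + 1) * pR m M / δ := by
  have := packet_support h (right_ne_zero_of_mul hξ)
  rw [norm_smul, Real.norm_eq_abs, abs_of_pos hδ] at this
  rw [div_le_iff₀ hδ, le_div_iff₀ hδ, mul_comm ‖ξ‖]
  exact this

lemma piece_measurable (m M : ℕ) (δ : ℝ) (v : EuclideanSpace ℝ (Fin (m + 1))) :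
    Measurable (piece m M δ v) := by
  refine (measurable_const.mul (Continuous.measurable (by fun_prop))).mul
    (packet_measurable.comp (measurable_const_smul δ))

lemma piece_integrable (h : Good m M) {δ : ℝ} (hδ : 0 < δ) (v : EuclideanSpace ℝ (Fin (m + 1))) :
    Integrable (piece m M δ v) := by
  refine (((packet_integrable h).comp_smul hδ.ne').bdd_mul (c := δ ^ (m + 1))
    (Continuous.aestronglyMeasurable (by fun_prop)) (Filter.Eventually.of_forall fun ξ => ?_))
  rw [norm_mul, Complex.norm_exp, Complex.norm_real, Real.norm_eq_abs,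
    abs_of_pos (by positivity)]
  simp

lemma piece_l2 (h : Good m M) {δ : ℝ} (hδ : 0 < δ) (v : EuclideanSpace ℝ (Fin (m + 1))) :
    ∫ ξ, ‖piece m M δ v ξ‖ ^ 2 ≤ δ ^ (m + 1) * ((M : ℝ) ^ (2 * m + 2))⁻¹ := by
  have e : ∀ ξ, ‖piece m M δ v ξ‖ ^ 2 = (δ ^ (m + 1)) ^ 2 * ‖packet m M (δ • ξ)‖ ^ 2 := by
    intro ξ
    rw [piece, norm_mul, norm_mul, Complex.norm_exp, Complex.norm_real, Real.norm_eq_abs,
      abs_of_pos (by positivity)]
    simp [mul_pow]
  simp only [e]
  rw [integral_const_mul, Measure.integral_comp_smul_of_nonneg volume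
    (fun ξ => ‖packet m M ξ‖ ^ 2) δ (hR := hδ.le), finrank_euclideanSpace_fin, smul_eq_mul]
  refine le_trans (le_of_eq ?_) (mul_le_mul_of_nonneg_left (packet_l2 h) (by positivity))
  have : 0 < δ ^ (m + 1) := by positivity
  field_simp

lemma piece_sq_integrable (h : Good m M) {δ : ℝ} (hδ : 0 < δ) (v : EuclideanSpace ℝ (Fin (m + 1))) :
    Integrable fun ξ => ‖piece m M δ v ξ‖ ^ 2 := by
  refine ((piece_integrable h hδ v).norm.const_mul (δ ^ (m + 1))).mono'
    ((piece_measurable m M δ v).norm.pow_const 2).aestronglyMeasurable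
    (Filter.Eventually.of_forall fun ξ => ?_)
  have : ‖piece m M δ v ξ‖ ≤ δ ^ (m + 1) := by
    rw [piece, norm_mul, norm_mul, Complex.norm_exp, Complex.norm_real, Real.norm_eq_abs,
      abs_of_pos (by positivity)]
    simpa using mul_le_of_le_one_right (by positivity : (0 : ℝ) ≤ δ ^ (m + 1)) (packet_norm_le h (δ • ξ))
  rw [Real.norm_eq_abs, abs_of_nonneg (by positivity), sq]
  exact mul_le_mul_of_nonneg_right this (norm_nonneg _)

lemma evo_piece {δ : ℝ} (hδ : 0 < δ) (v x : EuclideanSpace ℝ (Fin (m + 1))) (a t : ℝ) :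
    evo (piece m M δ v) a x t = evo (packet m M) (a / δ ^ 2) (δ⁻¹ • (x - v)) (t / δ ^ 2) := by
  simp only [evo]
  congr 1
  set g : EuclideanSpace ℝ (Fin (m + 1)) → ℂ := fun η =>
    exp (I * (⟪δ⁻¹ • (x - v), η⟫ : ℝ) - I * ((t / δ ^ 2 : ℝ) : ℂ) * (‖η‖ ^ 2 : ℝ)
      - ((a / δ ^ 2 : ℝ) : ℂ) * (‖η‖ ^ 2 : ℝ)) * packet m M η with hg
  have e : ∀ ξ, exp (I * (⟪x, ξ⟫ : ℝ) - I * (t : ℂ) * (‖ξ‖ ^ 2 : ℝ) - (a : ℂ) * (‖ξ‖ ^ 2 : ℝ))
      * piece m M δ v ξ = ((δ ^ (m + 1) : ℝ) : ℂ) * g (δ • ξ) := by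
    intro ξ
    have h1 : ⟪δ⁻¹ • (x - v), δ • ξ⟫ = ⟪x, ξ⟫ - ⟪v, ξ⟫ := by
      rw [real_inner_smul_left, real_inner_smul_right, inner_sub_left]
      field_simp
    have h2 : ‖δ • ξ‖ ^ 2 = δ ^ 2 * ‖ξ‖ ^ 2 := by
      rw [norm_smul, Real.norm_eq_abs, mul_pow, sq_abs]
    simp only [hg, piece, h1, h2]
    have h3 : exp (I * (⟪x, ξ⟫ : ℝ) - I * (t : ℂ) * (‖ξ‖ ^ 2 : ℝ) - (a : ℂ) * (‖ξ‖ ^ 2 : ℝ))
        * exp (-(I * (⟪v, ξ⟫ : ℝ))) = exp (I * ((⟪x, ξ⟫ - ⟪v, ξ⟫ : ℝ) : ℂ)
          - I * ((t / δ ^ 2 : ℝ) : ℂ) * ((δ ^ 2 * ‖ξ‖ ^ 2 : ℝ) : ℂ)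
          - ((a / δ ^ 2 : ℝ) : ℂ) * ((δ ^ 2 * ‖ξ‖ ^ 2 : ℝ) : ℂ)) := by
      rw [← Complex.exp_add]
      congr 1
      have : (δ : ℂ) ≠ 0 := by exact_mod_cast hδ.ne'
      push_cast
      field_simp
      ring
    rw [← h3]
    ring
  simp only [e]
  rw [integral_const_mul, Measure.integral_comp_smul_of_nonneg volume g δ (hR := hδ.le),
    finrank_euclideanSpace_fin, Complex.real_smul, ← mul_assoc, ← Complex.ofReal_mul,
    mul_inv_cancel₀ (pow_ne_zero _ hδ.ne'), Complex.ofReal_one, one_mul]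

end Vale.Agent.P076.Endpoint
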