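import Vale.Agent.P076.Endpoint.Packet

/-!
Superposition of packets at rapidly separated frequency scales: a function in the endpoint
Besov space whose evolution oscillates as `t → 0+` on a set of positive measure.
-/

namespace Vale.Agent.P076.Endpoint

open Finset MeasureTheory Complex Filter Topology
open scoped RealInnerProductSpace

variable {m : ℕ}

lemma exists_param (m : ℕ) {δ τ η : ℝ} (U : ℝ) (hδ : 0 < δ) (hτ : 0 < τ) (hη : 0 < η) :
    ∃ M : ℕ, Good m M ∧ δ ^ 2 / (128 * pR m M) ≤ τ ∧ U ≤ pR m M / δ ∧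
      (10 * δ ^ 2 / τ) ^ (m + 1) / pR m M ≤ η ∧ 3 / δ ≤ τ / δ ^ 2 * pD m M / 4 := by
  have hlog : ∀ᶠ x : ℝ in atTop, 64 * (4 + ((m : ℝ) + 1) * Real.log x) ≤ x := by
    have h := Real.isLittleO_log_id_atTop.def (show (0 : ℝ) < 1 / (128 * ((m : ℝ) + 1)) by positivity)
    filter_upwards [h, eventually_ge_atTop (512 : ℝ)] with x hx hx2
    simp only [id, Real.norm_eq_abs, abs_of_pos (show (0 : ℝ) < x by linarith)] at hx
    have h2 : Real.log x ≤ 1 / (128 * ((m : ℝ) + 1)) * x := (le_abs_self _).trans hx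
    have h3 : 64 * (((m : ℝ) + 1) * Real.log x) ≤ x / 2 := by
      calc 64 * (((m : ℝ) + 1) * Real.log x)
          ≤ 64 * (((m : ℝ) + 1) * (1 / (128 * ((m : ℝ) + 1)) * x)) := by gcongr
        _ = x / 2 := by field_simp; ring
    linarith
  have hM : Tendsto (fun u : ℕ => ((8 * u : ℕ) : ℝ)) atTop atTop :=
    tendsto_natCast_atTop_atTop.comp (tendsto_id.const_mul_atTop' (by norm_num : 0 < 8))
  have e1 := hM.eventually hlog
  have e2 := hM.eventually (eventually_ge_atTop (max (max (δ ^ 2 / (128 * τ)) (U * δ))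
    (max ((10 * δ ^ 2 / τ) ^ (m + 1) / η) (12 * δ / τ))))
  obtain ⟨u, h1, h2, hu⟩ := (e1.and (e2.and (eventually_ge_atTop 1))).exists
  simp only [max_le_iff] at h2
  obtain ⟨⟨a1, a2⟩, a3, a4⟩ := h2
  set M := 8 * u with hMdef
  have hg : Good m M := ⟨⟨⟨4 * u, by omega⟩, by omega, h1⟩, ⟨u, rfl⟩⟩
  have hM1 : (1 : ℝ) ≤ (M : ℝ) := by
    have : 1 ≤ M := by omega
    exact_mod_cast this
  have hR : (M : ℝ) ≤ pR m M := by
    rw [pR]
    refine (le_self_pow₀ hM1 (show 2 * m + 4 ≠ 0 by omega)).trans (le_mul_of_one_le_left ?_ ?_)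
    · positivity
    · linarith [Real.pi_gt_three]
  have hD : (M : ℝ) ≤ pD m M := by
    rw [pD]
    refine (le_self_pow₀ hM1 (show m + 2 ≠ 0 by omega)).trans (le_mul_of_one_le_left ?_ ?_)
    · positivity
    · linarith [Real.pi_gt_three]
  have hR0 : (0 : ℝ) < pR m M := by linarith
  refine ⟨M, hg, ?_, ?_, ?_, ?_⟩
  · rw [div_le_iff₀ (by positivity)]
    rw [div_le_iff₀ (by positivity)] at a1
    calc δ ^ 2 ≤ (M : ℝ) * (128 * τ) := a1
      _ ≤ pR m M * (128 * τ) := by gcongr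
      _ = _ := by ring
  · rw [le_div_iff₀ hδ]; linarith
  · rw [div_le_iff₀ hR0]
    rw [div_le_iff₀ hη] at a3
    calc (10 * δ ^ 2 / τ) ^ (m + 1) ≤ (M : ℝ) * η := a3
      _ ≤ pR m M * η := by gcongr
      _ = _ := mul_comm _ _
  · rw [div_le_iff₀ hτ] at a4
    rw [show τ / δ ^ 2 * pD m M / 4 = τ * pD m M / (4 * δ ^ 2) by ring,
      div_le_div_iff₀ hδ (by positivity)]
    have : τ * (M : ℝ) ≤ τ * pD m M := by gcongr
    nlinarith

/-- Frequency bounds and times of a scaled packet. -/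
noncomputable def hi (m M : ℕ) (δ : ℝ) : ℝ := 3 * (m + 1) * pR m M / δ
/-- The earliest time used by a scaled packet. -/
noncomputable def tlo (m M : ℕ) (δ : ℝ) : ℝ := δ ^ 2 / (256 * (M : ℝ) ^ (m + 1) * pR m M)
/-- Lipschitz constant in time of the evolution of a scaled packet. -/
noncomputable def lip (m M : ℕ) (δ : ℝ) (v : EuclideanSpace ℝ (Fin (m + 1))) : ℝ :=
  hi m M δ ^ 2 * ∫ ξ, ‖piece m M δ v ξ‖

/-- The step of the recursive choice: from `(θ, U, Λ)` at stage `k` the parameter. -/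
noncomputable def pickM (m : ℕ) (δ : ℝ) (k : ℕ) (st : ℝ × ℝ × ℝ) : ℕ :=
  Classical.epsilon fun M : ℕ =>
    Good m M ∧ δ ^ 2 / (128 * pR m M) ≤ min st.1 ((1 / 2) ^ k / (((k : ℝ) + 1) * (st.2.2 + 1))) ∧
      2 * st.2.1 + 2 ≤ pR m M / δ ∧
      (10 * δ ^ 2 / min st.1 ((1 / 2) ^ k / (((k : ℝ) + 1) * (st.2.2 + 1)))) ^ (m + 1) / pR m M
        ≤ (1 / 2) ^ k ∧
      3 / δ ≤ min st.1 ((1 / 2) ^ k / (((k : ℝ) + 1) * (st.2.2 + 1))) / δ ^ 2 * pD m M / 4

/-- The recursive states `(θ, U, Λ)`. -/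
noncomputable def state (m : ℕ) (δ : ℕ → ℝ) (v : ℕ → EuclideanSpace ℝ (Fin (m + 1))) :
    ℕ → ℝ × ℝ × ℝ
  | 0 => (1, 0, 0)
  | k + 1 =>
    let st := state m δ v k
    let M := pickM m (δ k) k st
    (tlo m M (δ k), max st.2.1 (hi m M (δ k)), max st.2.2 (lip m M (δ k) (v k)))

/-- What the recursive choice provides. -/
structure Schedule (m : ℕ) (δ : ℕ → ℝ) (v : ℕ → EuclideanSpace ℝ (Fin (m + 1))) where
  M : ℕ → ℕ
  τ : ℕ → ℝ
  good : ∀ k, Good m (M k)
  τpos : ∀ k, 0 < τ k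
  τle : ∀ k, τ k ≤ (1 / 2) ^ k
  top : ∀ k, δ k ^ 2 / (128 * pR m (M k)) ≤ τ k
  two : ∀ k, 2 ≤ pR m (M k) / δ k
  sep : ∀ i k, i < k → 2 * hi m (M i) (δ i) + 2 ≤ pR m (M k) / δ k
  early : ∀ i k, i < k → τ k ≤ tlo m (M i) (δ i)
  small : ∀ k, (10 * δ k ^ 2 / τ k) ^ (m + 1) / pR m (M k) ≤ (1 / 2) ^ k
  box : ∀ k, 3 / δ k ≤ τ k / δ k ^ 2 * pD m (M k) / 4
  flat : ∀ i k, i < k → τ k * lip m (M i) (δ i) (v i) ≤ (1 / 2) ^ k / ((k : ℝ) + 1)

lemma lip_nonneg (M : ℕ) (δ : ℝ) (v : EuclideanSpace ℝ (Fin (m + 1))) : 0 ≤ lip m M δ v :=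
  mul_nonneg (sq_nonneg _) (integral_nonneg fun _ => norm_nonneg _)

theorem exists_schedule (m : ℕ) (δ : ℕ → ℝ) (hδ : ∀ k, 0 < δ k)
    (v : ℕ → EuclideanSpace ℝ (Fin (m + 1))) : Nonempty (Schedule m δ v) := by
  set M := fun k => pickM m (δ k) k (state m δ v k) with hM
  set τ := fun k => min (state m δ v k).1 ((1 / 2) ^ k / (((k : ℝ) + 1) * ((state m δ v k).2.2 + 1)))
    with hτ
  have hsucc : ∀ k, state m δ v (k + 1) = (tlo m (M k) (δ k),
      max (state m δ v k).2.1 (hi m (M k) (δ k)), max (state m δ v k).2.2 (lip m (M k) (δ k) (v k))) :=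
    fun k => rfl
  have main : ∀ k, 0 < (state m δ v k).1 ∧ 0 ≤ (state m δ v k).2.1 ∧ 0 ≤ (state m δ v k).2.2 ∧
      (∀ i, i < k → (state m δ v k).1 ≤ tlo m (M i) (δ i) ∧ hi m (M i) (δ i) ≤ (state m δ v k).2.1 ∧
        lip m (M i) (δ i) (v i) ≤ (state m δ v k).2.2) := by
    intro k
    induction k with
    | zero => simp [state]
    | succ k ih =>
      obtain ⟨h1, h2, h3, h4⟩ := ih
      have hτ0 : 0 < τ k := lt_min h1 (by positivity)
      have spec := Classical.epsilon_spec (exists_param m (2 * (state m δ v k).2.1 + 2) (hδ k) hτ0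
        (show (0 : ℝ) < (1 / 2) ^ k by positivity))
      obtain ⟨hg, htop, -, -, -⟩ := spec
      change Good m (M k) at hg
      change δ k ^ 2 / (128 * pR m (M k)) ≤ τ k at htop
      have hR := hg.basic.1
      have hM1 : (1 : ℝ) ≤ (M k : ℝ) ^ (m + 1) :=
        one_le_pow₀ (by exact_mod_cast le_trans (by norm_num) hg.eight_le)
      have hlo : tlo m (M k) (δ k) ≤ (state m δ v k).1 := by
        refine le_trans ?_ (htop.trans (min_le_left _ _))
        rw [tlo]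
        exact div_le_div_of_nonneg_left (sq_nonneg _) (by positivity) (by nlinarith)
      rw [hsucc]
      refine ⟨?_, le_max_of_le_left h2, le_max_of_le_left h3, fun i hi' => ?_⟩
      · have := hδ k
        rw [tlo]; positivity
      · rcases Nat.lt_succ_iff_lt_or_eq.mp hi' with hlt | rfl
        · obtain ⟨a, b, c⟩ := h4 i hlt
          exact ⟨hlo.trans a, le_max_of_le_left b, le_max_of_le_left c⟩
        · exact ⟨le_rfl, le_max_right _ _, le_max_right _ _⟩
  have hτpos : ∀ k, 0 < τ k := fun k => lt_min (main k).1 (by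
    have := (main k).2.2.1; positivity)
  have spec : ∀ k, Good m (M k) ∧ δ k ^ 2 / (128 * pR m (M k)) ≤ τ k ∧
      2 * (state m δ v k).2.1 + 2 ≤ pR m (M k) / δ k ∧
      (10 * δ k ^ 2 / τ k) ^ (m + 1) / pR m (M k) ≤ (1 / 2) ^ k ∧
      3 / δ k ≤ τ k / δ k ^ 2 * pD m (M k) / 4 := fun k =>
    Classical.epsilon_spec (exists_param m (2 * (state m δ v k).2.1 + 2) (hδ k) (hτpos k)
      (show (0 : ℝ) < (1 / 2) ^ k by positivity))
  refine ⟨⟨M, τ, fun k => (spec k).1, hτpos, fun k => ?_, fun k => (spec k).2.1, fun k => ?_,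
    fun i k h => ?_, fun i k h => ?_, fun k => (spec k).2.2.2.1, fun k => (spec k).2.2.2.2,
    fun i k h => ?_⟩⟩
  · refine (min_le_right _ _).trans (div_le_self (by positivity) ?_)
    have := (main k).2.2.1
    nlinarith [Nat.cast_nonneg (α := ℝ) k]
  · linarith [(spec k).2.2.1, (main k).2.1]
  · linarith [(spec k).2.2.1, ((main k).2.2.2 i h).2.1]
  · exact (min_le_left _ _).trans ((main k).2.2.2 i h).1
  · have h3 := (main k).2.2.1
    have hl := ((main k).2.2.2 i h).2.2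
    calc τ k * lip m (M i) (δ i) (v i)
        ≤ ((1 / 2) ^ k / (((k : ℝ) + 1) * ((state m δ v k).2.2 + 1))) * ((state m δ v k).2.2 + 1) :=
          mul_le_mul (min_le_right _ _) (by linarith) (lip_nonneg _ _ _) (by positivity)
      _ = _ := by field_simp

/-- The frequency shell of a scaled packet. -/
def shell (m M : ℕ) (δ : ℝ) : Set (EuclideanSpace ℝ (Fin (m + 1))) :=
  {ξ | pR m M / δ ≤ ‖ξ‖ ∧ ‖ξ‖ ≤ hi m M δ}

lemma arcSet_measurable (m M : ℕ) : MeasurableSet (arcSet m M) := by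
  have e : arcSet m M = ⋃ (q : ℕ) (a : ℕ) (_ : (q, a) ∈ labels (M ^ (m + 1))) (p : Fin m → ℕ)
      (_ : ∀ j, p j < M ^ (m + 2) * q),
      {x : Fin (m + 1) → ℝ | |x 0 - (a : ℝ) / (64 * q)| ≤ 1 / (8 * (M : ℝ) ^ (m + 2)) ∧
        ∀ j : Fin m, |x j.succ - (p j : ℝ) / (8 * (M : ℝ) ^ (m + 2) * q)|
          ≤ 1 / (256 * (M : ℝ) ^ (2 * m + 4))} := by
    ext x
    simp only [arcSet, Set.mem_ofPred_eq, Set.mem_iUnion, exists_prop]
  rw [e]
  refine MeasurableSet.iUnion fun q => MeasurableSet.iUnion fun a => MeasurableSet.iUnion fun _ =>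
    MeasurableSet.iUnion fun p => MeasurableSet.iUnion fun _ => ?_
  rw [Set.ofPred_and, Set.ofPred_forall]
  exact (measurableSet_le (by fun_prop) measurable_const).inter
    (MeasurableSet.iInter fun j => measurableSet_le (by fun_prop) measurable_const)

lemma arcSet_small {M : ℕ} (hM : 8 ≤ M) {y : Fin (m + 1) → ℝ} (hy : y ∈ arcSet m M) (i : Fin (m + 1)) :
    |y i| ≤ 1 / 2 := by
  obtain ⟨q, a, hqa, p, hp, h0, h1⟩ := hy
  simp only [labels, Finset.mem_filter, Finset.mem_product, Finset.mem_Ico] at hqa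
  have haq : (a : ℝ) ≤ q := by exact_mod_cast hqa.2.2.1.le
  have hq : (0 : ℝ) < q := by exact_mod_cast lt_of_le_of_lt (Nat.zero_le _) hqa.2.2.1
  have hM1 : (8 : ℝ) ≤ M := by exact_mod_cast hM
  refine Fin.cases ?_ (fun j => ?_) i
  · have a1 : (a : ℝ) / (64 * q) ≤ 1 / 64 := by
      rw [div_le_div_iff₀ (by positivity) (by norm_num)]; linarith
    have a2 : 1 / (8 * (M : ℝ) ^ (m + 2)) ≤ (1 : ℝ) / 8 := by
      gcongr; exact le_mul_of_one_le_right (by norm_num) (one_le_pow₀ (by linarith))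
    have a3 : (0 : ℝ) ≤ (a : ℝ) / (64 * q) := by positivity
    rw [abs_le] at h0 ⊢
    constructor <;> linarith [h0.1, h0.2]
  · have hP : (0 : ℝ) < 8 * (M : ℝ) ^ (m + 2) * q := by positivity
    have a1 : (p j : ℝ) / (8 * (M : ℝ) ^ (m + 2) * q) ≤ 1 / 8 := by
      rw [div_le_iff₀ hP]
      have : (p j : ℝ) ≤ (M : ℝ) ^ (m + 2) * q := by exact_mod_cast (hp j).le
      linarith
    have a2 : 1 / (256 * (M : ℝ) ^ (2 * m + 4)) ≤ (1 : ℝ) / 256 := by
      gcongr; exact le_mul_of_one_le_right (by norm_num) (one_le_pow₀ (by linarith))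
    have a3 : (0 : ℝ) ≤ (p j : ℝ) / (8 * (M : ℝ) ^ (m + 2) * q) := by positivity
    have h := abs_le.mp (h1 j)
    rw [abs_le]
    constructor <;> linarith [h.1, h.2]

lemma evo_norm_le {n : ℕ} {F : EuclideanSpace ℝ (Fin n) → ℂ} (hF : Integrable F) {a : ℝ} (ha : 0 ≤ a)
    (x : EuclideanSpace ℝ (Fin n)) (t : ℝ) :
    ‖evo F a x t‖ ≤ ∫ ξ, ‖F ξ‖ := by
  rw [evo, norm_smul, Real.norm_eq_abs, abs_of_pos (by positivity)]
  refine le_trans (mul_le_of_le_one_left (norm_nonneg _) (inv_le_one_of_one_le₀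
    (one_le_pow₀ (by linarith [Real.pi_gt_three])))) ?_
  refine norm_integral_le_of_norm_le hF.norm (Filter.Eventually.of_forall fun ξ => ?_)
  rw [norm_mul]
  exact mul_le_of_le_one_left (norm_nonneg _) (norm_phase_le ha _ _ _ (sq_nonneg _))

lemma evo_integrand_integrable {n : ℕ} {F : EuclideanSpace ℝ (Fin n) → ℂ} (hF : Integrable F)
    {a : ℝ} (ha : 0 ≤ a) (x : EuclideanSpace ℝ (Fin n)) (t : ℝ) :
    Integrable fun ξ : EuclideanSpace ℝ (Fin n) =>
      exp (I * (⟪x, ξ⟫ : ℝ) - I * (t : ℂ) * (‖ξ‖ ^ 2 : ℝ) - (a : ℂ) * (‖ξ‖ ^ 2 : ℝ)) * F ξ :=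
  hF.bdd_mul (c := 1) (Continuous.aestronglyMeasurable (by fun_prop))
    (Filter.Eventually.of_forall fun ξ => norm_phase_le ha _ _ _ (sq_nonneg _))

lemma evo_tendsto {n : ℕ} {F : EuclideanSpace ℝ (Fin n) → ℂ} (hF : Integrable F)
    (x : EuclideanSpace ℝ (Fin n)) (t : ℝ) :
    Tendsto (fun a => evo F a x t) (𝓝[>] 0) (𝓝 (evo F 0 x t)) := by
  simp only [evo]
  refine Tendsto.const_smul ?_ _
  refine tendsto_integral_filter_of_dominated_convergence (fun ξ => ‖F ξ‖) ?_ ?_ hF.norm ?_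
  · filter_upwards [self_mem_nhdsWithin] with a ha
    exact (evo_integrand_integrable hF (le_of_lt ha) x t).aestronglyMeasurable
  · filter_upwards [self_mem_nhdsWithin] with a ha
    refine Filter.Eventually.of_forall fun ξ => ?_
    rw [norm_mul]
    exact mul_le_of_le_one_left (norm_nonneg _) (norm_phase_le (le_of_lt ha) _ _ _ (sq_nonneg _))
  · refine Filter.Eventually.of_forall fun ξ => ?_
    refine (Continuous.tendsto' ?_ _ _ rfl).mono_left nhdsWithin_le_nhds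
    fun_prop

lemma evo_lipschitz {M : ℕ} (h : Good m M) {δ : ℝ} (hδ : 0 < δ)
    (v x : EuclideanSpace ℝ (Fin (m + 1))) (t t' : ℝ) :
    ‖evo (piece m M δ v) 0 x t - evo (piece m M δ v) 0 x t'‖ ≤ |t - t'| * lip m M δ v := by
  have hP := piece_integrable h hδ v
  rw [evo, evo, ← smul_sub, norm_smul, Real.norm_eq_abs, abs_of_pos (by positivity),
    ← integral_sub (evo_integrand_integrable hP le_rfl x t) (evo_integrand_integrable hP le_rfl x t')]
  refine le_trans (mul_le_of_le_one_left (norm_nonneg _) (inv_le_one_of_one_le₀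
    (one_le_pow₀ (by linarith [Real.pi_gt_three])))) ?_
  refine le_trans (norm_integral_le_of_norm_le (hP.norm.const_mul (|t - t'| * hi m M δ ^ 2))
    (Filter.Eventually.of_forall fun ξ => ?_)) (le_of_eq ?_)
  · rw [← sub_mul, norm_mul]
    by_cases hz : piece m M δ v ξ = 0
    · simp [hz]
    · refine mul_le_mul_of_nonneg_right ?_ (norm_nonneg _)
      have e : ∀ s : ℝ, exp (I * (⟪x, ξ⟫ : ℝ) - I * (s : ℂ) * (‖ξ‖ ^ 2 : ℝ)
          - ((0 : ℝ) : ℂ) * (‖ξ‖ ^ 2 : ℝ)) = exp (I * ((⟪x, ξ⟫ - s * ‖ξ‖ ^ 2 : ℝ) : ℂ)) := fun s => by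
        congr 1; push_cast; ring
      rw [e, e]
      refine (exp_I_sub_le _ _).trans ?_
      rw [show ⟪x, ξ⟫ - t * ‖ξ‖ ^ 2 - (⟪x, ξ⟫ - t' * ‖ξ‖ ^ 2) = -((t - t') * ‖ξ‖ ^ 2) by ring,
        abs_neg, abs_mul, abs_of_nonneg (sq_nonneg ‖ξ‖)]
      gcongr
      exact (piece_support h hδ hz).2
  · rw [integral_const_mul, lip, mul_assoc]

variable {δ : ℕ → ℝ} {v : ℕ → EuclideanSpace ℝ (Fin (m + 1))}

/-- The frequency profile of the counterexample. -/
noncomputable def total (S : Schedule m δ v) (ξ : EuclideanSpace ℝ (Fin (m + 1))) : ℂ :=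
  ∑' k, piece m (S.M k) (δ k) (v k) ξ

/-- The dyadic blocks. -/
def block (n b : ℕ) : Set (EuclideanSpace ℝ (Fin n)) :=
  {ξ | (2 : ℝ) ^ b ≤ ‖ξ‖ ∧ ‖ξ‖ < (2 : ℝ) ^ (b + 1)}

lemma block_measurable (n b : ℕ) : MeasurableSet (block n b) :=
  (measurableSet_le measurable_const measurable_norm).inter
    (measurableSet_lt measurable_norm measurable_const)

lemma shell_unique (S : Schedule m δ v) {i k : ℕ} {r r' : ℝ}
    (hi' : pR m (S.M i) / δ i ≤ r ∧ r ≤ hi m (S.M i) (δ i))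
    (hk : pR m (S.M k) / δ k ≤ r' ∧ r' ≤ hi m (S.M k) (δ k))
    (h : r < 2 * r') (h' : r' < 2 * r) : i = k := by
  rcases lt_trichotomy i k with hlt | heq | hgt
  · linarith [S.sep i k hlt, hi'.2, hk.1]
  · exact heq
  · linarith [S.sep k i hgt, hk.2, hi'.1]

lemma piece_shell (S : Schedule m δ v) (hδ : ∀ k, 0 < δ k) {k : ℕ}
    {ξ : EuclideanSpace ℝ (Fin (m + 1))} (h : piece m (S.M k) (δ k) (v k) ξ ≠ 0) :
    ξ ∈ shell m (S.M k) (δ k) :=
  piece_support (S.good k) (hδ k) h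

lemma total_eq (S : Schedule m δ v) (hδ : ∀ k, 0 < δ k) {k : ℕ}
    {ξ : EuclideanSpace ℝ (Fin (m + 1))} (h : ξ ∈ shell m (S.M k) (δ k)) :
    total S ξ = piece m (S.M k) (δ k) (v k) ξ := by
  refine tsum_eq_single k fun i hik => ?_
  by_contra hne
  have h' := piece_shell S hδ hne
  have : 0 < ‖ξ‖ := lt_of_lt_of_le (by linarith [S.two k]) h.1
  exact hik (shell_unique S h' h (by linarith) (by linarith))

lemma total_zero (S : Schedule m δ v) (hδ : ∀ k, 0 < δ k) {ξ : EuclideanSpace ℝ (Fin (m + 1))}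
    (h : ∀ k, ξ ∉ shell m (S.M k) (δ k)) : total S ξ = 0 := by
  rw [total, tsum_congr (g := fun _ => (0 : ℂ)) fun k => by
    by_contra hne; exact h k (piece_shell S hδ hne), tsum_zero]

lemma total_measurable (S : Schedule m δ v) (hδ : ∀ k, 0 < δ k) : Measurable (total S) := by
  refine measurable_of_tendsto_metrizable
    (fun N => Finset.measurable_sum (range N) fun k _ => piece_measurable m (S.M k) (δ k) (v k))
    (tendsto_pi_nhds.mpr fun ξ => ?_)
  refine HasSum.tendsto_sum_nat (Summable.hasSum ?_)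
  by_cases h : ∃ k, ξ ∈ shell m (S.M k) (δ k)
  · obtain ⟨k, hk⟩ := h
    refine summable_of_ne_finset_zero (s := {k}) fun i hi' => ?_
    by_contra hne
    have : 0 < ‖ξ‖ := lt_of_lt_of_le (by linarith [S.two k]) hk.1
    exact hi' (Finset.mem_singleton.mpr (shell_unique S (piece_shell S hδ hne) hk (by linarith) (by linarith)))
  · push Not at h
    exact summable_of_ne_finset_zero (s := ∅) fun i _ => by
      by_contra hne; exact h i (piece_shell S hδ hne)

lemma block_cases (S : Schedule m δ v) (hδ : ∀ k, 0 < δ k) (b : ℕ) :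
    (∀ ξ ∈ block (m + 1) b, total S ξ = 0) ∨
    ∃ k, (2 : ℝ) ^ b ≤ hi m (S.M k) (δ k) ∧ pR m (S.M k) / δ k < (2 : ℝ) ^ (b + 1) ∧
      ∀ ξ ∈ block (m + 1) b, total S ξ = piece m (S.M k) (δ k) (v k) ξ := by
  by_cases h : ∃ k, ∃ η ∈ block (m + 1) b, η ∈ shell m (S.M k) (δ k)
  · obtain ⟨k, η, hη, hk⟩ := h
    refine Or.inr ⟨k, hη.1.trans hk.2, lt_of_le_of_lt hk.1 hη.2, fun ξ hξ => ?_⟩
    have uniq : ∀ i, ξ ∈ shell m (S.M i) (δ i) → i = k := fun i hi' => by
      have hp := pow_succ (2 : ℝ) b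
      exact shell_unique S hi' hk (by linarith [hξ.2, hη.1]) (by linarith [hη.2, hξ.1])
    refine tsum_eq_single k fun i hik => ?_
    by_contra hne
    exact hik (uniq i (piece_shell S hδ hne))
  · push Not at h
    exact Or.inl fun ξ hξ => total_zero S hδ fun k => h k ξ hξ

/-- The energy in a dyadic block. -/
noncomputable def energy (S : Schedule m δ v) (b : ℕ) : ℝ :=
  ∫ ξ in block (m + 1) b, ‖total S ξ‖ ^ 2

lemma energy_integrable (S : Schedule m δ v) (hδ : ∀ k, 0 < δ k) (b : ℕ) :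
    IntegrableOn (fun ξ => ‖total S ξ‖ ^ 2) (block (m + 1) b) := by
  rcases block_cases S hδ b with h | ⟨k, -, -, h⟩
  · exact IntegrableOn.congr_fun integrableOn_zero
      (fun ξ hξ => by simp [h ξ hξ]) (block_measurable _ _)
  · exact IntegrableOn.congr_fun (piece_sq_integrable (S.good k) (hδ k) (v k)).integrableOn
      (fun ξ hξ => by simp [h ξ hξ]) (block_measurable _ _)

/-- The Sobolev exponent at the endpoint. -/
noncomputable def sExp (m : ℕ) : ℝ := ((m : ℝ) + 1) / (2 * (((m : ℝ) + 1) + 1))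
/-- The gain in the scale. -/
noncomputable def kExp (m : ℕ) : ℝ := ((m : ℝ) + 1) ^ 2 / (2 * (((m : ℝ) + 1) + 1))

lemma block_term_le (S : Schedule m δ v) (hδ : ∀ k, 0 < δ k) {q : ℝ} (hq : 0 < q) {b k : ℕ}
    (hb : (2 : ℝ) ^ b ≤ hi m (S.M k) (δ k))
    (h : ∀ ξ ∈ block (m + 1) b, total S ξ = piece m (S.M k) (δ k) (v k) ξ) :
    ((2 : ℝ) ^ ((b : ℝ) * sExp m) * energy S b ^ ((1 : ℝ) / 2)) ^ q
      ≤ ((3 * ((m : ℝ) + 1) * Real.pi) ^ sExp m * δ k ^ kExp m) ^ q := by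
  have he0 : 0 ≤ energy S b := integral_nonneg fun _ => sq_nonneg _
  have he : energy S b ≤ δ k ^ (m + 1) * ((S.M k : ℝ) ^ (2 * m + 2))⁻¹ := by
    refine le_trans ?_ (piece_l2 (S.good k) (hδ k) (v k))
    rw [energy, setIntegral_congr_fun (block_measurable _ _)
      (g := fun ξ => ‖piece m (S.M k) (δ k) (v k) ξ‖ ^ 2) fun ξ hξ => by simp [h ξ hξ]]
    exact setIntegral_le_integral (piece_sq_integrable (S.good k) (hδ k) (v k))
      (Filter.Eventually.of_forall fun _ => sq_nonneg _)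
  have hs : 0 ≤ sExp m := by unfold sExp; positivity
  refine Real.rpow_le_rpow (by positivity) ?_ hq.le
  have hd := hδ k
  have hM : (0 : ℝ) < S.M k := by exact_mod_cast lt_of_lt_of_le (by norm_num) (S.good k).eight_le
  calc (2 : ℝ) ^ ((b : ℝ) * sExp m) * energy S b ^ ((1 : ℝ) / 2)
      ≤ hi m (S.M k) (δ k) ^ sExp m
          * (δ k ^ (m + 1) * ((S.M k : ℝ) ^ (2 * m + 2))⁻¹) ^ ((1 : ℝ) / 2) := by
        refine mul_le_mul ?_ (Real.rpow_le_rpow he0 he (by norm_num)) (by positivity)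
          (Real.rpow_nonneg ((pow_nonneg zero_le_two b).trans hb) _)
        rw [Real.rpow_mul (by norm_num), Real.rpow_natCast]
        exact Real.rpow_le_rpow (by positivity) hb hs
    _ = (3 * ((m : ℝ) + 1) * Real.pi) ^ sExp m * δ k ^ kExp m := by
        have e1 : (δ k ^ (m + 1) * ((S.M k : ℝ) ^ (2 * m + 2))⁻¹) ^ ((1 : ℝ) / 2)
            = δ k ^ (((m : ℝ) + 1) / 2) * ((S.M k : ℝ) ^ (((m : ℝ) + 1)))⁻¹ := by
          rw [Real.mul_rpow (by positivity) (by positivity), Real.inv_rpow (by positivity),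
            ← Real.rpow_natCast, ← Real.rpow_mul hd.le, ← Real.rpow_natCast (S.M k : ℝ),
            ← Real.rpow_mul hM.le]
          push_cast
          congr 2
          · ring
          · congr 1; ring
        have e2 : hi m (S.M k) (δ k) ^ sExp m = (3 * ((m : ℝ) + 1) * Real.pi) ^ sExp m
            * (S.M k : ℝ) ^ ((m : ℝ) + 1) * δ k ^ (-sExp m) := by
          rw [hi, pR, Real.div_rpow (by positivity) hd.le, Real.rpow_neg hd.le, ← mul_assoc,
            Real.mul_rpow (by positivity) (by positivity), ← Real.rpow_natCast (S.M k : ℝ),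
            ← Real.rpow_mul hM.le, div_eq_mul_inv]
          congr 3
          rw [sExp]
          push_cast
          field_simp
          ring
        have e3 : δ k ^ (-sExp m) * δ k ^ (((m : ℝ) + 1) / 2) = δ k ^ kExp m := by
          rw [← Real.rpow_add hd]
          congr 1
          rw [sExp, kExp]
          field_simp
          ring
        rw [e1, e2, ← e3]
        have : (S.M k : ℝ) ^ ((m : ℝ) + 1) ≠ 0 := (Real.rpow_pos_of_pos hM _).ne'
        field_simp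

lemma besov_summable (S : Schedule m δ v) (hδ : ∀ k, 0 < δ k) {q : ℝ} (hq : 0 < q)
    (hsum : Summable fun k => δ k ^ (kExp m * q)) :
    Summable fun b : ℕ => ((2 : ℝ) ^ ((b : ℝ) * sExp m) * energy S b ^ ((1 : ℝ) / 2)) ^ q := by
  classical
  set C := (3 * ((m : ℝ) + 1) * Real.pi) ^ sExp m with hC
  have hC0 : 0 ≤ C := by positivity
  set A := fun k => (C * δ k ^ kExp m) ^ q with hA
  have hA0 : ∀ k, 0 ≤ A k := fun k => Real.rpow_nonneg (mul_nonneg hC0 (Real.rpow_nonneg (hδ k).le _)) _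
  have hAs : Summable A := by
    refine (hsum.mul_left (C ^ q)).congr fun k => ?_
    rw [hA]; simp only
    rw [Real.mul_rpow hC0 (Real.rpow_nonneg (hδ k).le _), ← Real.rpow_mul (hδ k).le]
  set T := fun b : ℕ => ((2 : ℝ) ^ ((b : ℝ) * sExp m) * energy S b ^ ((1 : ℝ) / 2)) ^ q with hT
  have hT0 : ∀ b, 0 ≤ T b := fun b => by
    have : 0 ≤ energy S b := integral_nonneg fun _ => sq_nonneg _
    positivity
  refine summable_of_sum_le (c := (3 * (m + 1) + 2 : ℕ) * ∑' k, A k) hT0 fun B => ?_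
  set P := fun b k : ℕ => (2 : ℝ) ^ b ≤ hi m (S.M k) (δ k) ∧ pR m (S.M k) / δ k < (2 : ℝ) ^ (b + 1)
    ∧ T b ≤ A k with hP
  set B' := B.filter fun b => ∃ k, P b k with hB'
  have hz : ∑ b ∈ B, T b = ∑ b ∈ B', T b := by
    refine (Finset.sum_filter_of_ne fun b _ hne => ?_).symm
    rcases block_cases S hδ b with h | ⟨k, h1, h2, h3⟩
    · refine absurd ?_ hne
      have : energy S b = 0 := by
        rw [energy, setIntegral_congr_fun (block_measurable _ _) (g := fun _ => (0 : ℝ))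
          fun ξ hξ => by simp [h ξ hξ]]
        simp
      simp [hT, this, Real.zero_rpow hq.ne']
    · exact ⟨k, h1, h2, block_term_le S hδ hq h1 h3⟩
  set kf := fun b => Classical.epsilon fun k => P b k with hkf
  have hkfs : ∀ b ∈ B', P b (kf b) := fun b hb =>
    Classical.epsilon_spec (Finset.mem_filter.mp hb).2
  rw [hz]
  refine (Finset.sum_le_sum (g := fun b => A (kf b)) fun b hb => (hkfs b hb).2.2).trans ?_
  rw [Finset.sum_comp A kf]
  refine le_trans (Finset.sum_le_sum (g := fun k => ((3 * (m + 1) + 2 : ℕ) : ℝ) * A k) fun k _ => ?_) ?_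
  · rw [nsmul_eq_mul]
    refine mul_le_mul_of_nonneg_right (Nat.cast_le.mpr ?_) (hA0 k)
    rcases (B'.filter fun b => kf b = k).eq_empty_or_nonempty with he | hne
    · simp [he]
    set b0 := (B'.filter fun b => kf b = k).min' hne with hb0
    refine le_trans (Finset.card_le_card (t := Finset.Icc b0 (b0 + (3 * (m + 1) + 1))) fun b hb => ?_)
      (by rw [Nat.card_Icc]; omega)
    have hb0mem := (B'.filter fun b => kf b = k).min'_mem hne
    rw [← hb0] at hb0mem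
    obtain ⟨hbB, hbk⟩ := Finset.mem_filter.mp hb
    obtain ⟨h0B, h0k⟩ := Finset.mem_filter.mp hb0mem
    refine Finset.mem_Icc.mpr ⟨Finset.min'_le _ _ hb, ?_⟩
    have p1 := (hkfs b hbB).1
    have p2 := (hkfs b0 h0B).2.1
    rw [hbk] at p1
    rw [h0k] at p2
    have hhi : hi m (S.M k) (δ k) = 3 * ((m : ℝ) + 1) * (pR m (S.M k) / δ k) := by rw [hi]; ring
    have p3 : (2 : ℝ) ^ b < (3 * (m + 1) : ℕ) * (2 : ℝ) ^ (b0 + 1) := by
      refine lt_of_le_of_lt p1 ?_
      rw [hhi]; push_cast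
      gcongr
    by_contra hlt
    push Not at hlt
    have p4 : (2 : ℝ) ^ (b0 + 1) * (3 * (m + 1) : ℕ) ≤ (2 : ℝ) ^ b := by
      calc (2 : ℝ) ^ (b0 + 1) * (3 * (m + 1) : ℕ)
          ≤ (2 : ℝ) ^ (b0 + 1) * (2 : ℝ) ^ (3 * (m + 1)) := by
            gcongr
            exact_mod_cast (Nat.lt_two_pow_self).le
        _ ≤ _ := by rw [← pow_add]; exact pow_le_pow_right₀ (by norm_num) (by omega)
    linarith
  · rw [← Finset.mul_sum]
    exact mul_le_mul_of_nonneg_left (hAs.sum_le_tsum _ fun k _ => hA0 k) (Nat.cast_nonneg _)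

lemma sobolev_finite (S : Schedule m δ v) (hδ : ∀ k, 0 < δ k) {q : ℝ} (hq : 0 < q)
    (hT : Summable fun b : ℕ => ((2 : ℝ) ^ ((b : ℝ) * sExp m) * energy S b ^ ((1 : ℝ) / 2)) ^ q)
    {s : ℝ} (hs : s < sExp m) :
    ∫⁻ ξ, ENNReal.ofReal ((1 + ‖ξ‖ ^ 2) ^ s * ‖total S ξ‖ ^ 2) < ⊤ := by
  set s' := max s 0 with hs'
  have hsp : 0 < sExp m := by unfold sExp; positivity
  have hs'lt : s' < sExp m := max_lt hs hsp
  have he0 : ∀ b, 0 ≤ energy S b := fun b => integral_nonneg fun _ => sq_nonneg _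
  set Z := (∑' b : ℕ, ((2 : ℝ) ^ ((b : ℝ) * sExp m) * energy S b ^ ((1 : ℝ) / 2)) ^ q) ^ (1 / q) with hZ
  have hbound : ∀ b : ℕ, energy S b ≤ Z ^ 2 * ((2 : ℝ) ^ (-2 * sExp m)) ^ b := by
    intro b
    have hx : (0 : ℝ) ≤ (2 : ℝ) ^ ((b : ℝ) * sExp m) * energy S b ^ ((1 : ℝ) / 2) := by
      have := he0 b; positivity
    have h1 := hT.le_tsum b fun i _ => by have := he0 i; positivity
    have h2 := Real.rpow_le_rpow (Real.rpow_nonneg hx q) h1 (by positivity : (0 : ℝ) ≤ 1 / q)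
    rw [← Real.rpow_mul hx, mul_one_div_cancel hq.ne', Real.rpow_one, ← hZ] at h2
    have h3 := pow_le_pow_left₀ hx h2 2
    rw [mul_pow, ← Real.sqrt_eq_rpow, Real.sq_sqrt (he0 b)] at h3
    have hp : (0 : ℝ) < ((2 : ℝ) ^ ((b : ℝ) * sExp m)) ^ 2 := by positivity
    have e : ((2 : ℝ) ^ (-2 * sExp m)) ^ b = (((2 : ℝ) ^ ((b : ℝ) * sExp m)) ^ 2)⁻¹ := by
      rw [← Real.rpow_natCast, ← Real.rpow_mul (by norm_num), ← Real.rpow_natCast _ 2,
        ← Real.rpow_mul (by norm_num), ← Real.rpow_neg (by norm_num)]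
      congr 1
      push_cast
      ring
    rw [e, ← div_eq_mul_inv, le_div_iff₀ hp, mul_comm]
    exact h3
  set f := fun ξ => ENNReal.ofReal ((1 + ‖ξ‖ ^ 2) ^ s * ‖total S ξ‖ ^ 2) with hf
  have hzero : ∀ ξ ∉ ⋃ b, block (m + 1) b, f ξ = 0 := by
    intro ξ hξ
    have : total S ξ = 0 := total_zero S hδ fun k hk => hξ (by
      have h1 : (1 : ℝ) ≤ ‖ξ‖ := le_trans (by linarith [S.two k]) hk.1
      obtain ⟨b, hb1, hb2⟩ := exists_nat_pow_near h1 (one_lt_two (α := ℝ))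
      exact Set.mem_iUnion.mpr ⟨b, hb1, hb2⟩)
    simp [hf, this]
  rw [← setLIntegral_eq_of_support_subset (s := ⋃ b, block (m + 1) b) (fun ξ hξ => by
    by_contra hc; exact hξ (hzero ξ hc))]
  refine lt_of_le_of_lt (lintegral_iUnion_le _ _) ?_
  have hb : ∀ b : ℕ, ∫⁻ ξ in block (m + 1) b, f ξ
      ≤ ENNReal.ofReal ((8 : ℝ) ^ s' * Z ^ 2 * ((2 : ℝ) ^ (2 * s' - 2 * sExp m)) ^ b) := by
    intro b
    have h1 : ∫⁻ ξ in block (m + 1) b, f ξ
        ≤ ∫⁻ ξ in block (m + 1) b, ENNReal.ofReal (((8 : ℝ) * (2 : ℝ) ^ (2 * b)) ^ s' * ‖total S ξ‖ ^ 2) := by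
      refine setLIntegral_mono' (block_measurable _ _) fun ξ hξ => ENNReal.ofReal_le_ofReal ?_
      refine mul_le_mul_of_nonneg_right ?_ (sq_nonneg _)
      refine (Real.rpow_le_rpow_of_exponent_le (by nlinarith [sq_nonneg ‖ξ‖]) (le_max_left s 0)).trans ?_
      refine Real.rpow_le_rpow (by positivity) ?_ (le_max_right _ _)
      have h2 := pow_le_pow_left₀ (norm_nonneg ξ) hξ.2.le 2
      have h3 : (1 : ℝ) ≤ (2 : ℝ) ^ (2 * b) := one_le_pow₀ (by norm_num)
      have h4 : ((2 : ℝ) ^ (b + 1)) ^ 2 = 4 * (2 : ℝ) ^ (2 * b) := by ring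
      linarith
    refine h1.trans ?_
    rw [← ofReal_integral_eq_lintegral_ofReal ((energy_integrable S hδ b).const_mul _)
      (Filter.Eventually.of_forall fun _ => by positivity), integral_const_mul]
    refine ENNReal.ofReal_le_ofReal ?_
    change ((8 : ℝ) * (2 : ℝ) ^ (2 * b)) ^ s' * energy S b ≤ _
    refine (mul_le_mul_of_nonneg_left (hbound b) (by positivity)).trans (le_of_eq ?_)
    rw [Real.mul_rpow (by norm_num) (by positivity), Real.rpow_sub (by norm_num) (2 * s') (2 * sExp m),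
      div_pow, neg_mul, Real.rpow_neg (by norm_num), inv_pow]
    have : ((2 : ℝ) ^ (2 * b)) ^ s' = ((2 : ℝ) ^ (2 * s')) ^ b := by
      rw [← Real.rpow_natCast, ← Real.rpow_mul (by norm_num), ← Real.rpow_natCast _ b,
        ← Real.rpow_mul (by norm_num)]
      congr 1
      push_cast
      ring
    rw [this]
    ring
  refine lt_of_le_of_lt (ENNReal.tsum_le_tsum hb) ?_
  rw [← ENNReal.ofReal_tsum_of_nonneg (fun b => by positivity)]
  · exact ENNReal.ofReal_lt_top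
  · refine (summable_geometric_of_lt_one (by positivity) ?_).mul_left _
    exact Real.rpow_lt_one_of_one_lt_of_neg one_lt_two (by linarith)

lemma piece_bound (S : Schedule m δ v) (hδ : ∀ k, 0 < δ k) {x : EuclideanSpace ℝ (Fin (m + 1))}
    (hx : ∀ i, |x i| ≤ 2) (hv : ∀ k i, |v k i| ≤ 1) {k : ℕ} {a t : ℝ} (ha : 0 ≤ a) (ht : S.τ k ≤ t) :
    ‖evo (piece m (S.M k) (δ k) (v k)) a x t‖ ≤ (1 / 2) ^ k := by
  have hd := hδ k
  rw [evo_piece hd]
  refine (packet_upper (S.good k) (θ := S.τ k / δ k ^ 2) (X := 3 / δ k)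
    (div_pos (S.τpos k) (by positivity)) (by gcongr) (by positivity) (S.box k) _ fun i => ?_).trans ?_
  · have : |x i - v k i| ≤ 3 := (abs_sub _ _).trans (by linarith [hx i, hv k i])
    rw [PiLp.smul_apply, PiLp.sub_apply, smul_eq_mul, abs_mul, abs_inv, abs_of_pos hd,
      inv_mul_eq_div]
    gcongr
  · refine le_trans (le_of_eq ?_) (S.small k)
    rw [div_div_eq_mul_div]

/-- The envelope used in dominated convergence. -/
lemma piece_envelope (S : Schedule m δ v) (hδ : ∀ k, 0 < δ k) {x : EuclideanSpace ℝ (Fin (m + 1))}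
    (hx : ∀ i, |x i| ≤ 2) (hv : ∀ k i, |v k i| ≤ 1) {t : ℝ} (ht : 0 < t) :
    ∃ B : ℕ → ℝ, Summable B ∧
      ∀ k a, 0 ≤ a → ‖evo (piece m (S.M k) (δ k) (v k)) a x t‖ ≤ B k := by
  classical
  refine ⟨fun k => if S.τ k ≤ t then (1 / 2) ^ k else ∫ ξ, ‖piece m (S.M k) (δ k) (v k) ξ‖, ?_, ?_⟩
  · obtain ⟨N, hN⟩ := exists_pow_lt_of_lt_one ht (show (1 / 2 : ℝ) < 1 by norm_num)
    refine (summable_congr_cofinite (f := fun k => (1 / 2 : ℝ) ^ k) ?_).mp
      (summable_geometric_two)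
    rw [Nat.cofinite_eq_atTop]
    refine eventually_atTop.mpr ⟨N, fun k hk => ?_⟩
    have : S.τ k ≤ t := (S.τle k).trans ((pow_le_pow_of_le_one (by norm_num) (by norm_num) hk).trans hN.le)
    simp [this]
  · intro k a ha
    by_cases h : S.τ k ≤ t
    · simpa [h] using piece_bound S hδ hx hv ha h
    · simpa [h] using evo_norm_le (piece_integrable (S.good k) (hδ k) (v k)) ha x t

lemma total_limit (S : Schedule m δ v) (hδ : ∀ k, 0 < δ k) (hF : Integrable fun ξ => ‖total S ξ‖ ^ 2)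
    {x : EuclideanSpace ℝ (Fin (m + 1))} (hx : ∀ i, |x i| ≤ 2) (hv : ∀ k i, |v k i| ≤ 1)
    {t : ℝ} (ht : 0 < t) :
    Tendsto (fun a => evo (total S) a x t) (𝓝[>] 0)
      (𝓝 (∑' k, evo (piece m (S.M k) (δ k) (v k)) 0 x t)) := by
  obtain ⟨B, hB, hBb⟩ := piece_envelope S hδ hx hv ht
  have key : Tendsto (fun a => ∑' k, evo (piece m (S.M k) (δ k) (v k)) a x t) (𝓝[>] 0)
      (𝓝 (∑' k, evo (piece m (S.M k) (δ k) (v k)) 0 x t)) := by
    refine tendsto_tsum_of_dominated_convergence hB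
      (fun k => evo_tendsto (piece_integrable (S.good k) (hδ k) (v k)) x t) ?_
    filter_upwards [self_mem_nhdsWithin] with a ha k using hBb k a (le_of_lt ha)
  refine key.congr' ?_
  filter_upwards [self_mem_nhdsWithin] with a ha
  have ha0 : (0 : ℝ) < a := ha
  set g := fun ξ : EuclideanSpace ℝ (Fin (m + 1)) =>
    exp (I * (⟪x, ξ⟫ : ℝ) - I * (t : ℂ) * (‖ξ‖ ^ 2 : ℝ) - (a : ℂ) * (‖ξ‖ ^ 2 : ℝ)) * total S ξ with hg
  have hgauss : Integrable fun ξ : EuclideanSpace ℝ (Fin (m + 1)) => Real.exp (-(2 * a) * ‖ξ‖ ^ 2) := by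
    have := (GaussianFourier.integrable_cexp_neg_mul_sq_norm_add
      (V := EuclideanSpace ℝ (Fin (m + 1))) (b := ((2 * a : ℝ) : ℂ)) (by simpa using ha0) 0 0).norm
    refine this.congr (Filter.Eventually.of_forall fun ξ => ?_)
    simp [Complex.norm_exp, ← Complex.ofReal_pow]
  have hgint : Integrable g := by
    refine (hgauss.add hF).mono'
      ((Continuous.aestronglyMeasurable (by fun_prop)).mul (total_measurable S hδ).aestronglyMeasurable)
      (Filter.Eventually.of_forall fun ξ => ?_)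
    rw [hg, norm_mul, Complex.norm_exp]
    have e : (I * (⟪x, ξ⟫ : ℝ) - I * (t : ℂ) * (‖ξ‖ ^ 2 : ℝ) - (a : ℂ) * (‖ξ‖ ^ 2 : ℝ)).re
        = -(a * ‖ξ‖ ^ 2) := by
      simp [← Complex.ofReal_pow]
    rw [e, Pi.add_apply, show -(2 * a) * ‖ξ‖ ^ 2 = -(a * ‖ξ‖ ^ 2) + -(a * ‖ξ‖ ^ 2) by ring, Real.exp_add]
    nlinarith [sq_nonneg (Real.exp (-(a * ‖ξ‖ ^ 2)) - ‖total S ξ‖),
      Real.exp_nonneg (-(a * ‖ξ‖ ^ 2)), norm_nonneg (total S ξ)]
  have hsm : ∀ k, MeasurableSet (shell m (S.M k) (δ k)) := fun k =>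
    (measurableSet_le measurable_const measurable_norm).inter
      (measurableSet_le measurable_norm measurable_const)
  have hdisj : Pairwise (Function.onFun Disjoint fun k => shell m (S.M k) (δ k)) := by
    intro i k hik
    rw [Function.onFun, Set.disjoint_left]
    intro ξ h1 h2
    have : 0 < ‖ξ‖ := lt_of_lt_of_le (by linarith [S.two i]) h1.1
    exact hik (shell_unique S h1 h2 (by linarith) (by linarith))
  have hs := hasSum_integral_iUnion hsm hdisj hgint.integrableOn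
  rw [setIntegral_eq_integral_of_forall_compl_eq_zero (fun ξ hξ => by
    simp only [Set.mem_iUnion, not_exists] at hξ
    rw [hg]; simp only; rw [total_zero S hδ hξ, mul_zero])] at hs
  have e : ∀ k, ∫ ξ in shell m (S.M k) (δ k), g ξ
      = ∫ ξ : EuclideanSpace ℝ (Fin (m + 1)),
        exp (I * (⟪x, ξ⟫ : ℝ) - I * (t : ℂ) * (‖ξ‖ ^ 2 : ℝ) - (a : ℂ) * (‖ξ‖ ^ 2 : ℝ))
          * piece m (S.M k) (δ k) (v k) ξ := fun k => by
    rw [← integral_indicator (hsm k)]
    refine integral_congr_ae (Filter.Eventually.of_forall fun ξ => ?_)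
    by_cases hξ : ξ ∈ shell m (S.M k) (δ k)
    · rw [Set.indicator_of_mem hξ, hg]; simp only; rw [total_eq S hδ hξ]
    · rw [Set.indicator_of_notMem hξ]
      have : piece m (S.M k) (δ k) (v k) ξ = 0 := by
        by_contra hne; exact hξ (piece_shell S hδ hne)
      simp [this]
  simp only [e] at hs
  simp only [evo]
  exact (hs.const_smul (((2 * Real.pi) ^ (m + 1) : ℝ)⁻¹)).tsum_eq

lemma oscillation (S : Schedule m δ v) (hδ : ∀ k, 0 < δ k) {x : EuclideanSpace ℝ (Fin (m + 1))}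
    (hx : ∀ i, |x i| ≤ 2) (hv : ∀ k i, |v k i| ≤ 1) {K : ℕ}
    (hK : (fun i => (δ K)⁻¹ * (x i - v K i)) ∈ arcSet m (S.M K)) :
    ∃ t, 0 < t ∧ t ≤ S.τ K ∧ lowC m - 5 * (1 / 2) ^ K ≤
      ‖(∑' k, evo (piece m (S.M k) (δ k) (v k)) 0 x t)
        - ∑' k, evo (piece m (S.M k) (δ k) (v k)) 0 x (S.τ K)‖ := by
  have hd := hδ K
  obtain ⟨t', ht1, ht2, hlow⟩ := packet_lower (S.good K) ((δ K)⁻¹ • (x - v K)) (by
    simpa [PiLp.smul_apply, PiLp.sub_apply] using hK)
  set t := δ K ^ 2 * t' with ht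
  set u := fun k s => evo (piece m (S.M k) (δ k) (v k)) 0 x s with hu
  have hR := (S.good K).basic.1
  have hM8 : (0 : ℝ) < S.M K := by exact_mod_cast lt_of_lt_of_le (by norm_num) (S.good K).eight_le
  have htlo : tlo m (S.M K) (δ K) ≤ t := by
    rw [tlo, ht, div_eq_mul_one_div]; gcongr
  have htlo0 : 0 < tlo m (S.M K) (δ K) := by rw [tlo]; positivity
  have htτ : t ≤ S.τ K := by
    refine le_trans ?_ (S.top K)
    rw [ht, div_eq_mul_one_div (δ K ^ 2)]; gcongr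
  have ht0 : 0 < t := lt_of_lt_of_le htlo0 htlo
  refine ⟨t, ht0, htτ, ?_⟩
  have hsum : ∀ s, 0 < s → Summable fun k => u k s := by
    intro s hs
    obtain ⟨B, hB, hBb⟩ := piece_envelope S hδ hx hv hs
    exact Summable.of_norm_bounded hB fun k => hBb k 0 le_rfl
  have hd' : Summable fun k => u k t - u k (S.τ K) := (hsum t ht0).sub (hsum _ (S.τpos K))
  rw [← Summable.tsum_sub (hsum t ht0) (hsum _ (S.τpos K))]
  have hmain : lowC m - (1 / 2) ^ K ≤ ‖u K t - u K (S.τ K)‖ := by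
    have h1 : lowC m ≤ ‖u K t‖ := by
      simp only [hu]
      rw [evo_piece hd, zero_div, ht, mul_div_cancel_left₀ _ (pow_ne_zero _ hd.ne')]
      exact hlow
    have h2 : ‖u K (S.τ K)‖ ≤ (1 / 2) ^ K := piece_bound S hδ hx hv le_rfl le_rfl
    linarith [norm_sub_norm_le (u K t) (u K (S.τ K))]
  set r := fun i => if i = K then (0 : ℂ) else u i t - u i (S.τ K) with hr
  set b := fun i : ℕ => if i < K + 1 then (1 / 2 : ℝ) ^ K / ((K : ℝ) + 1) else 2 * (1 / 2) ^ i with hb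
  have hrb : ∀ i, ‖r i‖ ≤ b i := by
    intro i
    simp only [hr, hb]
    rcases lt_trichotomy i K with hlt | rfl | hgt
    · rw [if_neg hlt.ne, if_pos (by omega)]
      refine (evo_lipschitz (S.good i) (hδ i) (v i) x t (S.τ K)).trans
        (le_trans ?_ (S.flat i K hlt))
      refine mul_le_mul_of_nonneg_right ?_ (lip_nonneg _ _ _)
      rw [abs_le]; constructor <;> linarith
    · simp only [if_pos, norm_zero]
      split_ifs <;> positivity
    · rw [if_neg hgt.ne', if_neg (by omega)]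
      have hτi : S.τ i ≤ t := (S.early K i hgt).trans htlo
      have h1 : ‖u i t‖ ≤ (1 / 2) ^ i := piece_bound S hδ hx hv le_rfl hτi
      have h2 : ‖u i (S.τ K)‖ ≤ (1 / 2) ^ i := piece_bound S hδ hx hv le_rfl (hτi.trans htτ)
      linarith [norm_sub_le (u i t) (u i (S.τ K))]
  have hbs : Summable b := by
    refine (summable_congr_cofinite (f := fun i => 2 * (1 / 2 : ℝ) ^ i) ?_).mp
      (summable_geometric_two.mul_left 2)
    rw [Nat.cofinite_eq_atTop]
    refine eventually_atTop.mpr ⟨K + 1, fun i hi' => ?_⟩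
    simp only [hb]
    rw [if_neg (show ¬ i < K + 1 by omega)]
  have hbt : ∑' i, b i = 3 * (1 / 2 : ℝ) ^ K := by
    rw [← hbs.sum_add_tsum_nat_add (K + 1),
      Finset.sum_congr rfl (g := fun _ => (1 / 2 : ℝ) ^ K / ((K : ℝ) + 1)) fun i hi' => by
        simp only [hb]
        rw [if_pos (Finset.mem_range.mp hi')]]
    rw [tsum_congr (g := fun i => (1 / 2 : ℝ) ^ K * (1 / 2) ^ i) fun i => by
      simp only [hb]
      rw [if_neg (show ¬ i + (K + 1) < K + 1 by omega), pow_add, pow_succ]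
      ring, tsum_mul_left, tsum_geometric_two]
    simp
    field_simp
    ring
  have hrest : ‖∑' i, r i‖ ≤ 3 * (1 / 2 : ℝ) ^ K := hbt ▸ tsum_of_norm_bounded hbs.hasSum hrb
  rw [hd'.tsum_eq_add_tsum_ite K]
  have h3 : ‖u K t - u K (S.τ K)‖ ≤ ‖(u K t - u K (S.τ K)) + ∑' i, r i‖ + ‖∑' i, r i‖ := by
    simpa using norm_sub_le ((u K t - u K (S.τ K)) + ∑' i, r i) (∑' i, r i)
  have : (0 : ℝ) ≤ (1 / 2 : ℝ) ^ K := by positivity
  linarith

end Vale.Agent.P076.Endpoint
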